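import Vale.Agent.P354SA.Far

/-!
Block S1, the near rays: the exact chart of Kerr, the perturbation, and the exact statements of
the pieces.
-/

open scoped ContDiff
open Set Filter Topology

noncomputable section

namespace Vale.Agent.P354SM

open Vale.Agent.P354n (R4)
open Vale.Agent.P354H (X3)
open Vale.Agent.P354I (P3 rm rp)
open Vale.Agent.P354R (Met)
open Vale.Agent.P354XD (tb)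
open Vale.Agent.P354XE (Tw pb gin rd ur Par Bd)
open Vale.Agent.P354XM (sh)
open Vale.Agent.P354YQ (SA JB JD)
open Vale.Agent.P354YM (Pm Jd)
open Vale.Agent.P354SA

/-- NEAR with the hypothesis 0 ≤ P.s. -/
def NEAR0 : Prop :=
  ∀ j0 : Jd, j0.Is → j0.a ≠ 0 → |j0.a| < j0.M → ∃ C1 ≥ 1, ∃ r0, ∀ r2 ≥ r0, ∃ C2 ≥ 1,
    ∀ (n : ℕ), ∀ t ≥ 0, ∀ r1 rr, rm j0.M j0.a < r1 → r1 < rr → (j0.t t).Rad rr → ∃ C3 ≥ 1,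
      ∃ ε0 > 0, ∀ (P : Pm) g D Y q q' β, P.M = j0.M → P.a = j0.a → P.r1 = r1 → 0 < P.θ →
        0 ≤ P.s → r2 + C1 ≤ P.R → n + 12 ≤ P.N → P.ε ≤ ε0 → Ed P g D Y q q' β → ∀ c φ b σ,
          ∃ R1, ∀ R ≥ R1, ∀ w ∈ Ioc 0 (1 / 10), ∀ σe, ∃ T s2 δ O Φ Y0,
            Nout n C1 C2 C3 w s2 r2 rr R T δ σe (j0.t t) P g D Y q' σ (Jt (j0.t t) q c φ b σ R) O
              Φ Y0 ∧ Exit (n + 4) C1 C2 C3 w s2 r2 (pb (Tq q' σ T) g) Y0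

/-! ### Bounds for a metric in the ray form -/

/-- The sharp bounds. -/
def Shp (C0 rc : ℝ) (g : Tw) (z : R4) : Prop :=
  JB 3 (a0 g) z C0 ∧ (∀ a, JB 3 (a1 g a) z C0) ∧
    ∀ a b, JB 3 (a2 g a b) z C0 ∧ |a2 g a b z| ≤ C0 / rc ^ 2

def RZB : Prop :=
  ∀ (n : ℕ), ∀ B ≥ 1, ∃ C ≥ 1, ∀ g D z r m C0 rc, IsOpen D → Met g D → z ∈ D →
    Bd (n + 2) g z B → (∀ v, ‖v‖ ≤ B * ‖tb g z v‖) → Nul g z → B⁻¹ ≤ Om g z → B⁻¹ ≤ dg g z →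
    0 < gm g 0 0 z → r ∈ Icc 1 B → B⁻¹ ≤ m → Shp C0 rc g z → Rp n C0 C r m 1 rc g z

def RZS : Prop :=
  ∀ B ≥ 1, ∃ C ≥ 1, ∀ g D z rc, IsOpen D → Met g D → z ∈ D → Bd 3 g z B → B⁻¹ ≤ Om g z →
    B⁻¹ ≤ dg g z → rc ∈ Icc 1 B → Shp C rc g z

def RZD : Prop :=
  ∀ B ≥ 1, ∀ e > 0, ∃ μ > 0, ∀ g g' D z, IsOpen D → Met g D → Met g' D → z ∈ D → Bd 3 g z B →
    Bd 3 (g' - g) z μ → B⁻¹ ≤ Om g z → B⁻¹ ≤ dg g z → B⁻¹ ≤ gm g 0 0 z →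
    (2 * B)⁻¹ ≤ Om g' z ∧ (2 * B)⁻¹ ≤ dg g' z ∧ 0 < gm g' 0 0 z ∧ |a0 g' z - a0 g z| ≤ e ∧
      ∀ C0, ∀ rc ∈ Icc 1 B, Shp C0 rc g z → Shp (C0 + 1) rc g' z

/-- The pull back of Kerr. -/
def PBG : Prop :=
  ∀ (M a r1 r2 B : ℝ) (k : ℕ), 0 < r1 → ∃ C ≥ 1, ∀ M' a' (Θ : R4 → R4) z, |M' - M| ≤ 1 →
    |a' - a| ≤ 1 → JD (k + 1) Θ z B → (∀ v, ‖v‖ ≤ B * ‖fderiv ℝ Θ z v‖) → rd (Θ z) ∈ Icc r1 r2 →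
    Bd k (pb Θ (gin M' a')) z C ∧ ∀ v, ‖v‖ ≤ C * ‖tb (pb Θ (gin M' a')) z v‖

/-- The inverse of the far chart. -/
def ETJ : Prop :=
  ∀ M a : ℝ, |a| < M → ∃ ε > 0, ∀ (E r2 : ℝ) (k : ℕ), ∃ C ≥ 1, ∀ σ M' a' T (z : R4),
    |M' - M| ≤ ε → |a' - a| ≤ ε → z.2.1 ∈ Icc (3 * M) r2 → ‖z.2.2‖ ≤ E →
    JD k (fun x => (rd x, et M' a' σ x)) (Th M' a' σ T z) C

/-! ### The exit -/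

/-- The tube, the strip, and the large strip. -/
def Ub (ρ s2 : ℝ) : Set R4 := {z | |z.2.1| < 1 ∧ ‖z.2.2‖ < 9 ∧ z.2.1 - ρ < z.1 ∧ z.1 < s2 + 2}
def Sp (s2 : ℝ) : Set R4 := {z | z.2 ∈ Wk (1 / 10) 2 ∧ |z.1 - s2| < 1}
def Sq (s2 : ℝ) : Set R4 := {z | |z.2.1| < 1 ∧ ‖z.2.2‖ < 9 ∧ |z.1 - s2| < 2}

/-- The position (ρ, η), and the state which belongs to a position. -/
def zz (Y : R4 → E5) (z : R4) : X3 := ((Y z).1, (Y z).2.1)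
def cr (a b : X3) : Y2 :=
  ((a.1 * b.2.2 - b.1 * a.2.2) / (a.2.1 * b.2.2 - a.2.2 * b.2.1),
    (b.1 * a.2.1 - a.1 * b.2.1) / (a.2.1 * b.2.2 - a.2.2 * b.2.1))
def Yz (Z : R4 → X3) (z : R4) : E5 :=
  ((Z z).1, (Z z).2, cr (fderiv ℝ Z z (ey 0)) (fderiv ℝ Z z (ey 1)))

/-- The bounds with the first constant. -/
def Ez (C r2 s2 : ℝ) (Y : R4 → E5) : Prop :=
  ∀ z ∈ Sp s2, SA Y z ∧ (∀ a, kv Y (ey a) z = 0) ∧ kv Y e1 z ∈ Icc C⁻¹ C ∧ |(Y z).1 - r2| ≤ C ∧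
    ‖(Y z).2‖ ≤ C ∧ (∀ y, ‖y‖ ≤ C * ‖dη Y z y‖) ∧ JD 1 (fun x => Y (z.1, x)) z.2 C ∧
    (‖z.2.2‖ ≤ 1 / 2 → C⁻¹ ≤ 1 - (Y z).2.1.1 ^ 2 - (Y z).2.1.2 ^ 2) ∧
    ∀ y, (z.1, z.2.1, y) ∈ Sp s2 → ‖z.2.2 - y‖ ≤ C * ‖(Y z).2.1 - (Y (z.1, z.2.1, y)).2.1‖

/-- EXP: the perturbation of the exit. -/
def EXP : Prop :=
  ∀ C1 ≥ 1, ∀ C2, ∃ C2' ≥ 1, ∀ (n : ℕ) B, ∃ C3 ≥ 1, ∃ μ > 0, ∀ r2 s2 Y0 Z, Ez C1 r2 s2 Y0 →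
    (∀ z ∈ Sp s2, JD 9 (zz Y0) z C2 ∧ JD (n + 1) (zz Y0) z B ∧
      JB 9 (fun x => Z x - zz Y0 x) z μ ∧ JB (n + 1) (fun x => Z x - zz Y0 x) z μ) →
    Ez (2 * C1) r2 s2 (Yz Z) ∧ ∀ z ∈ Sp s2, JD 8 (Yz Z) z C2' ∧ JD n (Yz Z) z C3

/-- The output of REF. -/
def Rf (M a k ε1 C0 s1 r1 : ℝ) (H : ℕ → P354RG.Y3 → ℝ) (b σ : Bool) (Ψ : P3 × ℝ → R4 → R4)
    (S : P354RG.Y3 → ℝ) : Prop :=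
  |a| < M ∧ 0 < ε1 ∧ 1 ≤ C0 ∧ 0 ≤ s1 ∧ 3 * M + 1 ≤ r1 ∧
    ∀ p ∈ Metric.closedBall ((M, a, M) : P3) ε1, ∀ s ∈ Icc (0 : ℝ) 1,
      Ref (M, a, M) k ε1 C0 s1 r1 H b σ Ψ S (p, s)

/-- The function c - u in the chart of q', and the position in the far chart. -/
def tu (q q' : Par) (T0 : ℝ) (p : R4) : ℝ := T0 - q.l / q'.l * p.1 + Fq q'.M q'.a (rd p)
def Zq (q q' : Par) (σ : Bool) (p : R4) : X3 :=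
  (rd p, et q'.M q'.a σ (P354YM.inv q' (q.lin p)))

/-- EX0: the exit for the rays of Kerr; the constant does not depend on r2. -/
def EX0 : Prop :=
  ∀ M a k ε1 C0 s1 r1 H b σ Ψ S, Rf M a k ε1 C0 s1 r1 H b σ Ψ S → ∃ C1 ≥ 1, ∃ r0, ∃ ε > 0,
    ∀ r2 ≥ r0, ∀ q q' : Par, q.Near M a ε → q'.Near M a ε → ∀ s ∈ Icc (0 : ℝ) 1,
      ∀ c φ T0 s2 (ψ Λ : R4 → R4), ψ = Ψ (P354YM.pp M q, s) →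
        s2 = tu q q' T0 (ψ (s1 + 2 * (r2 - r1), 0)) →
        (∀ z ∈ Sq s2, SA Λ z ∧ (Λ z).2 = z.2 ∧ s1 < (Λ z).1 ∧ tu q q' T0 (ψ (Λ z)) = z.1) →
        ∃ Y, Ez C1 r2 s2 Y ∧ zz Y = (fun z => Zq q q' σ (sh c φ (ψ (Λ z)))) ∧ ∀ z ∈ Sq s2,
          |(Y z).1 - r2| ≤ C1 ∧ ‖(Y z).2.1‖ ≤ C1 ∧
          q.lin (sh c φ (ψ (Λ z))) = Tq q' σ (T0 + q.l / q'.l * c) (z.1, zz Y z)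

/-- The chart Θ of the rays of the Kerr metric with the parameters q. -/
structure Kc (k : ℕ) (C1 C2 B r0 rr r2 s2 sc ρ T R : ℝ) (q q' : Par) (σ : Bool) (J : X3 → R4)
    (Θ : R4 → R4) (Y : R4 → E5) : Prop where
  par : T ∈ Icc (2 / 5 * R) (4 * R) ∧ s2 ∈ Icc 3 B ∧ sc ≤ B ∧ |s2 - sc| ≤ C2
  inj : InjOn Θ (Ub ρ s2)
  pt : ∀ z ∈ Ub ρ s2, JD k Θ z B ∧ (∀ v, ‖v‖ ≤ B * ‖fderiv ℝ Θ z v‖) ∧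
    rd (Θ z) ∈ Ioc rr (r2 + C1) ∧ (Θ z).1 ∈ Icc (2 / 5 * R) (3 * R) ∧
    (fderiv ℝ Θ z e0).1 ≤ -B⁻¹ ∧ (‖z.2.2‖ ≤ 3 / 5 → 0 < P354E.sg σ * (q.lin (Θ z)).2.2.2) ∧
    (r0 ≤ rd (Θ z) → ur q'.M q'.a (P354YM.inv q' (q.lin (Θ z))) = T - z.1) ∧
    (z.1 = z.2.1 → q.lin (Θ z) = J z.2) ∧
    (s2 - 2 < z.1 → q.lin (Θ z) = Tq q' σ T (z.1, zz Y z) ∧ JD 9 (zz Y) z C2 ∧ JD k (zz Y) z B)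
  met : ∀ z ∈ Ub ρ s2, ∀ g, g = pb Θ (gin q.M q.a) → Nul g z ∧ B⁻¹ ≤ Om g z ∧ B⁻¹ ≤ dg g z ∧
    B⁻¹ ≤ gm g 0 0 z ∧ (z.1 = z.2.1 → a0 g z = 0) ∧
    (z.2.1 ≤ z.1 → Shp C2 (jb (z.1 - z.2.1 - sc)) g z)
  ez : Ez C1 r2 s2 Y

/-- KCH: the chart exists (from REF, EX0, RZS, PBG, ETJ). -/
def KCH : Prop :=
  ∀ j0 : Jd, j0.Is → j0.a ≠ 0 → |j0.a| < j0.M → ∃ C1 ≥ 1, ∃ r0 r0', ∀ r2 ≥ r0', ∃ C2 ≥ 1,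
    ∀ (k : ℕ), ∀ t ≥ 0, ∀ rr > 0, (j0.t t).Rad rr → ∃ B ≥ 1, ∃ ρ ∈ Ioc (0 : ℝ) (1 / 2),
      ∃ ε > 0, ∀ q q' : Par, q.Near j0.M j0.a ε → q'.Near j0.M j0.a ε → ∀ c φ b σ, ∃ R1,
        ∀ R ≥ R1, ∃ T s2 Θ Y, Kc k C1 C2 B r0 rr r2 s2 (2 * t) ρ T R q q' σ
          (Jt (j0.t t) q c φ b σ R) Θ Y

end Vale.Agent.P354SM
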