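import Vale.Agent.P354SM.Np3

/-!
The near rays from the exact chart of Kerr.
-/

set_option maxSynthPendingDepth 3

open scoped ContDiff Nat
open Set Filter Topology

noncomputable section

namespace Vale.Agent.P354SM

open Vale.Agent.P354n (R4)
open Vale.Agent.P354I (rm rp)
open Vale.Agent.P354R (Met Pull)
open Vale.Agent.P354RC (k2)
open Vale.Agent.P354XE (Tw pb gin rd ur Par Bd En kap)
open Vale.Agent.P354XA (linL rd_lin hor lin_fst)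
open Vale.Agent.P354YO (bd_mono)
open Vale.Agent.P354YR (pull_comp pull_mono met_mono)
open Vale.Agent.P354SN (Nh Nc ts anr)
open Vale.Agent.P354CH (jb_one jb_le jb_pos)
open Vale.Agent.P354YQ (SA JB JD)
open Vale.Agent.P354SA

theorem small (c : ℝ) {d : ℝ} (h : 0 < d) : ∀ᶠ ε in 𝓝 (0 : ℝ), c * ε ≤ d :=
  ((continuous_const.mul continuous_id).continuousAt.eventually_lt continuousAt_const
    (by simpa)).mono fun _ k => k.le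

/-- The position of the tube. -/
theorem tube_t {k : ℕ} {C1 C2 B r0 rr r2 s2 sc ρ T R M a ε : ℝ} {q q' : Par} {σ J Θ Y}
    (K : Kc k C1 C2 B r0 rr r2 s2 sc ρ T R q q' σ J Θ Y) (h : q.Near M a ε) (e : 4 * ε ≤ 1)
    (hR : 0 ≤ R) {x : R4} (m : x ∈ Ub ρ s2) : (q.lin (Θ x)).1 ∈ Icc (R / 4) (6 * R) := by
  obtain ⟨k1, k2⟩ := (K.pt x m).2.2.2.1
  obtain ⟨l1, l2⟩ := abs_lt.1 h.2.2.1
  rw [lin_fst]
  constructor <;> nlinarith

theorem eta_le {B B1 η : ℝ} (b : 1 ≤ B) (b1 : B ≤ B1) (h0 : 0 ≤ η) (h : 10 * B1 ^ 2 * η ≤ 1) :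
    B1 * η ≤ 1 / 2 ∧ η ≤ 1 / 10 ∧ 4 * B ^ 2 * η ≤ 1 := by
  have a := mul_le_mul_of_nonneg_right (pow_le_pow_left₀ (by linarith) b1 2) h0
  have c := mul_le_mul_of_nonneg_right (one_le_pow₀ (n := 2) b) h0
  exact ⟨by nlinarith [mul_nonneg (mul_nonneg h0 (sub_nonneg.2 (b.trans b1))) (by linarith : 0 ≤ B1)],
    by linarith, by linarith⟩

/-- The remaining clauses at a point. -/
theorem st3 {n : ℕ} {C1 C2 B r0 rr r2 s2 sc ρ T R η ε M a C3 : ℝ} {q q' : Par} {σ J Θ Y g0 g1 F}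
    (K : Kc (n + 12) C1 C2 B r0 rr r2 s2 sc ρ T R q q' σ J Θ Y)
    (N : Nc (n + 8) (ρ / 4) η (Om0 (ρ / 4) s2) (Ub ρ s2) g0 g1 F) (h : q.Near M a ε)
    (e : 4 * ε ≤ 1) (b : 1 ≤ B) (r : 0 < rr) (e1 : η ≤ 1 / 10) (e2 : 4 * B ^ 2 * η ≤ 1)
    (hR : r2 + C1 ≤ R) (c1 : 3 * ((n + 1)! * B * 2 ^ (n + 1)) ≤ C3) (c2 : 8 * B ≤ C3) {z : R4}
    (m : z ∈ Om0 (ρ / 4) s2) {Φ : R4 → R4} (hΦ : Φ = (q.lin ∘ Θ) ∘ F) :
    (Φ z).1 + rd (Φ z) ∈ Icc (R / 4) (C3 * R) ∧ rr < rd (Φ z) ∧ JD (n + 1) Φ z C3 ∧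
      (∀ v, ‖v‖ ≤ C3 * ‖fderiv ℝ Φ z v‖) ∧ (‖z.2.2‖ ≤ 1 / 2 → 0 < P354E.sg σ * (Φ z).2.2.2) ∧
      (fderiv ℝ Φ z e0).1 < 0 ∧ (z.1 = z.2.1 → Φ z = J z.2) ∧
      (r0 ≤ rd (Φ z) → ur q'.M q'.a (P354YM.inv q' (Φ z)) = T - z.1) := by
  subst hΦ
  have u := N.pull.maps m
  obtain ⟨-, -, k3, -, -, k6, k7, k8, -⟩ := K.pt _ u
  obtain ⟨g1, g2, g3⟩ := geo K N b e2 m
  obtain ⟨l1, -, l3, -⟩ := P354LF.nr h (by linarith)
  have rΦ : rd (((q.lin ∘ Θ) ∘ F) z) = rd (Θ (F z)) := rd_lin h.2.2.2.1 _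
  have fd : ∀ v, fderiv ℝ ((q.lin ∘ Θ) ∘ F) z v = linL q (fderiv ℝ (Θ ∘ F) z v) :=
    DFunLike.congr_fun ((linL q).hasFDerivAt.comp z g2.sm.diff.hasFDerivAt).fderiv
  have R0 : 0 ≤ R := by linarith [k3.1, k3.2]
  have t := tube_t K h e R0 u
  refine ⟨?_, rΦ ▸ k3.1, (g2.clm (linL q)).mono ((mul_le_mul_of_nonneg_right l3
    (by positivity)).trans c1), fun v => ?_, fun y => k6 ?_, ?_, fun y => ?_,
    fun y => (N.pt z m).1 ▸ k7 (rΦ ▸ y)⟩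
  · rw [rΦ]
    exact ⟨le_add_of_le_of_nonneg t.1 (r.trans k3.1).le, (add_le_add t.2 k3.2).trans (by nlinarith)⟩
  · rw [fd]
    nlinarith [g3 v, lin_low h (by linarith) (fderiv ℝ (Θ ∘ F) z v),
      norm_nonneg (linL q (fderiv ℝ (Θ ∘ F) z v))]
  · have := norm_le_norm_sub_add (F z).2.2 z.2.2
    linarith [show ‖(F z).2.2 - z.2.2‖ ≤ η from ((norm_snd_le (F z - z).2).trans
      (norm_snd_le _)).trans (N.pt z m).2.2.2.2.2.1.zero]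
  · rw [fd]
    exact mul_neg_of_pos_of_neg (show 0 < q.l by linarith) g1
  · have e := (N.pt z m).2.1 (sub_eq_zero.2 y)
    rw [e] at k8
    simpa [e] using k8 y

theorem near0 (hK : KCH) (hB : RZB) (hD : RZD) (hP : PBG) (hE : EXP) : NEAR0 := by
  intro j0 h0 ha hM
  obtain ⟨C1, c1, r0, r0', H⟩ := hK j0 h0 ha hM
  refine ⟨2 * C1, one_le_mul_of_one_le_of_one_le one_le_two c1,
    max r0' (|r0| + 2 * C1 + 2 * j0.M + 3), fun r2 hr2 => ?_⟩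
  obtain ⟨C2, c2, H⟩ := H r2 (le_of_max_le_left hr2)
  have hr := le_of_max_le_right hr2
  obtain ⟨C2e, c2e, HE⟩ := hE C1 c1 C2
  have c8 : 0 ≤ 8! * C2e := by positivity
  refine ⟨C2 + 1 + 8! * C2e, by linarith, fun n t ht r1 rr a1 a2 a3 => ?_⟩
  have r10 : 0 < r1 := (hor hM).2.1.trans_lt a1
  have r11 := r10.trans a2
  obtain ⟨B, b1, ρ, hρ, εK, eK, H⟩ := H (n + 12) t ht rr r11 a3
  obtain ⟨Cg, cg, HP⟩ := hP j0.M j0.a rr (r2 + C1) B (n + 11) r11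
  have b0 : 0 < B := one_pos.trans_le b1
  obtain ⟨B1, b2, b3, b4, b5, b6⟩ : ∃ B1, 1 ≤ B1 ∧ Cg ≤ B1 ∧ 2 * B + 3 ≤ B1 ∧ B + 2 ≤ B1 ∧ B ≤ B1 :=
    ⟨Cg + 2 * B + 3, by linarith, by linarith, by linarith, by linarith, by linarith⟩
  have ρ0 : 0 < ρ / 4 := div_pos hρ.1 four_pos
  obtain ⟨εa, ea, Ca, ca, HA⟩ := anr (n + 8) B1 (inv_pos.2 b0) ρ0
  obtain ⟨Cp, cp, HQ⟩ := pbd (n + 10) B
  obtain ⟨μD, mD, HD⟩ := hD B1 b2 (1 / 20) (by norm_num)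
  obtain ⟨Cz, cz, HZ⟩ := hB n (2 * B1) (one_le_mul_of_one_le_of_one_le one_le_two b2)
  obtain ⟨C3e, c3e, μE, mE, HE⟩ := HE (n + 4) B
  obtain ⟨L, -, HL⟩ := lipd (n + 9)
  obtain ⟨εo, eo, HO⟩ := ori (hor hM).1.le j0.a r10
  obtain ⟨ε0, e0, hε⟩ := Metric.eventually_nhds_iff.1 ((small 1 eK).and ((small 4 one_pos).and
    ((small 1 eo).and ((small Cp ea).and ((small (Ca * Cp) mD).and
    ((small (10 * B1 ^ 2 * (Ca * Cp)) one_pos).and ((small (L * B * (Ca * Cp)) mE).and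
    (small 2 (sub_pos.2 hM)))))))))
  obtain ⟨C3, d1, d2, d3, d4, d5, d6⟩ : ∃ C3 : ℝ, 1 ≤ C3 ∧ Cz ≤ C3 ∧ (n + 4)! * C3e ≤ C3 ∧
      3 * ((n + 1)! * B * 2 ^ (n + 1)) ≤ C3 ∧ 8 * B ≤ C3 ∧ B ≤ C3 :=
    (((eventually_ge_atTop _).and ((eventually_ge_atTop _).and ((eventually_ge_atTop _).and
      ((eventually_ge_atTop _).and ((eventually_ge_atTop _).and (eventually_ge_atTop _))))))).exists
  refine ⟨C3, d1, ε0 / 2, half_pos e0,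
    fun P g D Y q q' β p1 p2 p3 p4 p5 p6 p7 p8 E c ψ b σ => ?_⟩
  have nq := E.isEnd.par.1
  have nq' := E.isEnd.par.2
  rw [p1, p2] at nq nq'
  have ε1 : 0 < P.ε := (abs_nonneg _).trans_lt nq.1
  obtain ⟨s1, s2, s3, s4, s5, s6, s7, s8⟩ := @hε P.ε (by
    rw [Real.dist_eq, sub_zero, abs_of_pos ε1]
    exact p8.trans_lt (half_lt_self e0))
  rw [one_mul] at s1 s3
  have nm : ∀ q : Par, q.Near j0.M j0.a P.ε → q.Near j0.M j0.a εK := fun q h =>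
    ⟨h.1.trans_le s1, h.2.1.trans_le s1, h.2.2.1.trans_le s1, h.2.2.2.1,
      fun i j => (h.2.2.2.2 i j).trans_le s1⟩
  obtain ⟨R1, H⟩ := H q q' (nm q nq) (nm q' nq') c ψ b σ
  obtain ⟨t0, ht0⟩ := (late (θ := P.θ) hM a1 (r2 + C1)).exists
  obtain ⟨R2, hR2⟩ := eventually_atTop.1 ((eventually_ge_atTop R1).and
    ((eventually_ge_atTop (4 * t0)).and ((eventually_ge_atTop (2 * B + 4)).and
      (eventually_ge_atTop (r2 + C1)))))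
  refine ⟨R2, fun R hR w hw σe => ?_⟩
  obtain ⟨f1, f2, f3, f4⟩ := hR2 R hR
  obtain ⟨T, sx, Θ, Y0, K⟩ := H R f1
  clear H hε hR2
  have kp := K.par
  have oq := nq.2.2.2.1
  have en : ∀ x ∈ Ub ρ sx, q.lin (Θ x) ∈ En P.M P.a P.r1 P.θ ∧
      0 < (kap P.M P.a (q.lin (Θ x))).1 := fun x m => by
    rw [p1, p2, p3]
    exact ht0 _ (by rw [rd_lin oq]; exact a2.trans (K.pt x m).2.2.1.1)
      (by rw [rd_lin oq]; exact (K.pt x m).2.2.1.2)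
      (by linarith only [f2, (tube_t K nq s2 (by linarith only [f3, b0]) m).1])
  have rR : ∀ x ∈ Ub ρ sx, rd (Θ x) ≤ P.R := fun x m => by
    linarith only [(K.pt x m).2.2.1.2, p6, c1]
  have pg := fun x (m : x ∈ Ub ρ sx) => (HP q.M q.a Θ x (by linarith only [nq.1, s2])
    (by linarith only [nq.2.1, s2]) (K.pt x m).1 (K.pt x m).2.1
    (Ioc_subset_Icc_self (K.pt x m).2.2.1)).imp (fun k => bd_mono k le_rfl b3) fun k v =>
      (k v).trans (mul_le_mul_of_nonneg_right b3 (norm_nonneg _))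
  have lo := lin_low nq (by linarith only [s2])
  obtain ⟨P0, hN⟩ := st1 K hρ r11 pg lo E.met.1 E.met.2.1 b5 HQ fun x m => ⟨E.sub (en x m).1,
    bd_mono (E.isEnd.conv _ (en x m).1 (rR x m)) (by omega)
      (mul_le_of_le_one_right ε1.le (P354LF.wt_le p5 (abs_nonneg _)))⟩
  obtain ⟨F, N⟩ := HA _ _ _ _ _ hN s4
  rw [mul_assoc] at s5
  rw [mul_assoc, mul_assoc Ca] at s6 s7
  obtain ⟨η1, η2, η3⟩ := eta_le b1 b6 (by positivity) s6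
  have P1 := pull_comp P0 N.pull
  have P2 : Pull _ (pb ((q.lin ∘ Θ) ∘ F) g) _ g D := { P1 with eq := fun _ _ _ _ => rfl }
  have S2 := fun z (m : z ∈ Om0 (ρ / 4) sx) => st2 K hρ r11 pg N P1 b1 b4 η1 s5
    (mul_nonneg zero_le_two ht) (by linarith only [kp.1.1, f3, b0]) cz
    (le_add_of_nonneg_right c8) d2 HD HZ m
  have S3 := fun z (m : z ∈ Om0 (ρ / 4) sx) => st3 K N nq s2 b1 r11 η2 η3 f4 d4 d5 m rfl
  have so := sp_om ρ0 kp.2.1.1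
  obtain ⟨x1, x2⟩ := HE r2 sx Y0 (fun x => zz Y0 (F x)) K.ez fun z m =>
    have k := zz_near K N hρ (η2.trans (by norm_num)) HL m
    ⟨k.1, k.2.1.ord (by omega), (k.2.2.ord (by omega)).mono s7, (k.2.2.ord (by omega)).mono s7⟩
  have os : {z : R4 | z.2 ∈ Wk w 2 ∧ z.2.1 - ρ / 4 < z.1 ∧ z.1 < sx + 1} ⊆ Om0 (ρ / 4) sx :=
    fun z m => ⟨wk_sub hw.2 m.1, m.2⟩
  have hq : |q'.a| < q'.M := by
    linarith only [abs_sub_abs_le_abs_sub q'.a j0.a, nq'.2.1, (abs_lt.1 nq'.1).1, s8]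
  refine ⟨T, sx, ρ / 4, _, (q.lin ∘ Θ) ∘ F, Yz fun x => zz Y0 (F x),
    ⟨rfl, ⟨ρ0, kp.1, ⟨kp.2.1.1, kp.2.1.2.trans d6⟩, kp.2.2.1.trans d6,
      kp.2.2.2.trans (by linarith only [c8])⟩,
      ⟨pull_mono P2 (o_open _ _ _) os P2.isOpen subset_rfl fun z m => P2.maps (os m),
        fun x a y a' e => N.inj (os a) (os a') (K.inj (N.pull.maps (os a)) (N.pull.maps (os a'))
          (inj_low lo e))⟩, fun z m' => ?_⟩,
    exit_of hw.2 E.met.2.1 x1 (by linarith only [c1]) hq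
      (by linarith only [(hor hq).2.2.2.1, (abs_lt.1 nq'.1).2, hr, s2, abs_nonneg r0])
      (zero_le_one.trans c2e) (zero_le_one.trans c3e) (by linarith only [c2]) d3
      fun z m => ⟨P2.maps (so m), far_eq K N (so m) (by linarith only [(abs_lt.1 m.2).1]),
        (S2 z (so m)).1, (S2 z (so m)).2.1, x2 z m⟩⟩
  have m := os m'
  have u := N.pull.maps m
  obtain ⟨k1, k2, k3, k4, k5, k6, k7, k8⟩ := S3 z m
  have nr := E.isEnd.near _ (en _ u).1 (by rw [rd_lin oq]; linarith only [rR _ u])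
  exact ⟨(S2 z m).1, (en _ u).1, (en _ u).2, k1, k2, k3, k4, k5, fun h => (S2 z m).2.2.2 h σe,
    fun h => ⟨k7 h, (S2 z m).2.2.1 h, HO g D _ _ _ _ _ E.met.2.1 (P2.maps m) (a2.trans k2).le
      (p1 ▸ p2 ▸ nr.2.1) s3 (E.sig _ (en _ u).1).1 nr.1 (S2 z m).1.1 k6⟩,
    fun h => k8 (by linarith only [h, hr, le_abs_self r0, (hor hM).1]), far_eq K N m⟩

end Vale.Agent.P354SM
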