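import Vale.Agent.P354SM.NDefs
import Vale.Agent.P354SN.Nr
import Vale.Agent.P354YO.OutA
import Vale.Agent.P354LF.Cv
import Vale.Agent.P354LF.Hj
import Vale.Agent.P354CH.Wt
import Vale.Agent.P354SC.Ch
import Vale.Agent.P354YR.Vac

/-!
Tools for the perturbation of the near rays.
-/

set_option maxSynthPendingDepth 3

open scoped ContDiff
open Set Filter Topology

noncomputable section

namespace Vale.Agent.P354SM

open Vale.Agent.P354n (R4)
open Vale.Agent.P354 (Bilin)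
open Vale.Agent.P354H (X3)
open Vale.Agent.P354I (rm rp)
open Vale.Agent.P354R (Met Pull)
open Vale.Agent.P354XD (tb rp_tb)
open Vale.Agent.P354XE (Tw pb gin rd ur Par Bd En kap ka mf)
open Vale.Agent.P354YI (Oj Jb)
open Vale.Agent.P354YO (Sb)
open Vale.Agent.P354YQ (SA JB JD)
open Vale.Agent.P354SA

variable {n : ℕ} {C C' C0 C0' r m l rc : ℝ} {g g' : Tw} {z : R4} {D : Set R4}

theorem Shp.mono (h : Shp C0 rc g z) (e : C0 ≤ C0') : Shp C0' rc g z :=
  ⟨h.1.mono e, fun a => (h.2.1 a).mono e, fun a b => ⟨(h.2.2 a b).1.mono e,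
    (h.2.2 a b).2.trans (div_le_div_of_nonneg_right e (sq_nonneg _))⟩⟩

theorem rp_mono (h : Rp n C0 C r m l rc g z) (c : 0 < C) (e : C ≤ C') (hm : 0 ≤ m) (hr : 0 ≤ r) :
    Rp n C0 C' r m l rc g z := by
  have i : C'⁻¹ ≤ C⁻¹ := inv_anti₀ c e
  have p1 : C * r ^ 2 ≤ C' * r ^ 2 := by gcongr
  have p2 : C * m ≤ C' * m := by gcongr
  have p3 : C * m / r ≤ C' * m / r := by gcongr
  have p4 : C * r ^ 2 * m ≤ C' * r ^ 2 * m := by gcongr
  exact ⟨h.null, ⟨i.trans h.pos.1, le_trans (by gcongr) h.pos.2.1, h.pos.2.2⟩,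
    ⟨h.one.1.mono e, h.one.2.1.mono e, fun a => (h.one.2.2.1 a).mono e,
      fun a b => (h.one.2.2.2 a b).mono p1⟩, h.dO.mono p2, h.d0.mono p2,
    fun a => (h.d1 a).mono p3, fun a b => (h.dg a b).mono p4, fun a b => (h.chi a b).mono p4,
    fun i j k o => (h.cur i j k o).mono p2, h.sharp⟩

/-- The pull back of a small field. -/
theorem pbd (k : ℕ) (B : ℝ) : ∃ C, 0 ≤ C ∧ ∀ (h : Tw) (Θ : R4 → R4) z μ, Sb h (Θ z) →
    JD (k + 1) Θ z B → Bd k h (Θ z) μ → Bd k (pb Θ h) z (C * μ) := by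
  let J := {j : Tw × (R4 → R4) × R4 × ℝ // Sb j.1 (j.2.1 j.2.2.1) ∧ JD (k + 1) j.2.1 j.2.2.1 B ∧
    Bd k j.1 (j.2.1 j.2.2.1) j.2.2.2}
  have s : ∀ j : J, ContDiffAt ℝ ∞ j.1.2.1 j.1.2.2.1 := fun j => j.2.2.1.sm.at
  obtain ⟨C, c0, hC⟩ := P354YO.bd_of_oj (fun j : J => j.2.1.pull (s j)) (P354YO.oj_pb s
    (.of1 (fun j => P354YI.at_fd (s j)) fun j => j.2.2.1.fderiv.le) (fun j => j.2.1)
    (P354YO.oj_of_bd (fun j => j.2.1) fun j => j.2.2.2))
  exact ⟨C, c0, fun h Θ z μ a b c => hC ⟨(h, Θ, z, μ), a, b, c⟩⟩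

theorem sb_met (o : IsOpen D) (m : Met g D) (h : z ∈ D) : Sb g z :=
  ⟨mem_of_superset (o.mem_nhds h) fun _ hy => P354XA.met_bil m hy,
    fun v w => (m.smooth v w).contDiffAt (o.mem_nhds h)⟩

theorem bd_add (s : Sb g z) (s' : Sb g' z) (h : Bd n g z C) (h' : Bd n (g' - g) z C') :
    Bd n g' z (C + C') := fun i hi v w => by
  have := Jb.add (f := fun x => g x v w) (g := fun x => (g' - g) x v w) (fun i hi => h i hi v w)
    (fun i hi => h' i hi v w) (s.sm v w) ((s'.sub s).sm v w) i hi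
  simp only [Pi.sub_apply, add_sub_cancel] at this
  exact this.trans_eq (by ring)

theorem bd_val (h : Bd n g z C) (v w : R4) : |g z v w| ≤ C * (‖v‖ * ‖w‖) := by
  simpa using h 0 n.zero_le v w

theorem nd_near (s : Sb g z) (s' : Sb g' z) (h : ∀ v, ‖v‖ ≤ C * ‖tb g z v‖) (c : 0 ≤ C)
    (h' : Bd n (g' - g) z C') (c' : 0 ≤ C') (e : C * C' ≤ 1 / 2) (v : R4) :
    ‖v‖ ≤ 2 * C * ‖tb g' z v‖ := by
  have k : ‖tb g z v - tb g' z v‖ ≤ C' * ‖v‖ :=
    ContinuousLinearMap.opNorm_le_bound _ (by positivity) fun w => by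
      rw [sub_apply, P354YO.tb_ap s.bl.self_of_nhds,
        P354YO.tb_ap s'.bl.self_of_nhds, norm_sub_rev, mul_assoc]
      exact bd_val h' v w
  have := mul_le_mul_of_nonneg_left ((norm_le_norm_sub_add _ (tb g' z v)).trans
    (add_le_add k le_rfl)) c
  nlinarith [h v, mul_le_mul_of_nonneg_right e (norm_nonneg v)]

/-- Late points belong to the end. -/
theorem late {M a r1 θ : ℝ} (h : |a| < M) (h1 : rm M a < r1) (r2 : ℝ) : ∀ᶠ t in atTop,
    ∀ p : R4, r1 < rd p → rd p ≤ r2 → t ≤ p.1 → p ∈ En M a r1 θ ∧ 0 < (kap M a p).1 := by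
  obtain ⟨-, h2, h3, -, h4, -⟩ := P354XA.hor h
  have m0 : 0 < mf M a r1 := Real.rpow_pos_of_pos (sub_pos.2 h1) _
  have l := Real.tendsto_exp_atTop.comp (tendsto_id.const_mul_atTop h4)
  filter_upwards [l.eventually_ge_atTop θ, (l.const_mul_atTop m0).eventually_gt_atTop (|r2| + 1)]
    with t a1 a2 p b1 b2 b3
  have e : Real.exp (ka M a * t) ≤ Real.exp (ka M a * p.1) := by gcongr
  have m1 : mf M a r1 ≤ mf M a (rd p) := Real.rpow_le_rpow (sub_pos.2 h1).le (by linarith)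
    (div_nonneg h2 (by linarith))
  have v : |r2| + 1 < mf M a (rd p) * Real.exp (ka M a * p.1) :=
    a2.trans_le (mul_le_mul m1 e (Real.exp_pos _).le (m0.le.trans m1))
  have k : 0 < (kap M a p).1 := by
    change 0 < (-(rd p - rp M a) / (mf M a (rd p) * Real.exp (ka M a * p.1)) +
      mf M a (rd p) * Real.exp (ka M a * p.1)) / 2
    generalize mf M a (rd p) * Real.exp (ka M a * p.1) = V at v
    have := abs_nonneg r2
    have v0 : 0 < V := by linarith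
    rw [div_add' _ _ _ v0.ne']
    exact half_pos (div_pos (by nlinarith [le_abs_self r2]) v0)
  exact ⟨⟨b1, a1.trans e, k.le⟩, k⟩

/-- The orientation of a null vector. -/
theorem ori {M : ℝ} (hM : 0 ≤ M) (a : ℝ) {r1 : ℝ} (h1 : 0 < r1) : ∃ ε > 0, ∀ (g : Tw) D p Y N n e,
    Met g D → p ∈ D → r1 ≤ rd p → Bd n (g - gin M a) p e → e ≤ ε → g p Y Y < 0 → 0 < Y.1 →
    g p N N = 0 → N.1 < 0 → 0 < g p N Y := by
  obtain ⟨c, c0, hc⟩ := P354XA.near_t hM a h1
  refine ⟨1 / (2 * c), by positivity, fun g D p Y N n e m hp r b he y y1 n0 n1 => ?_⟩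
  have B := P354XA.met_bil m hp
  have s : ∀ u v, g p u (-v) = -g p u v := fun u v => (m.lin p hp u).map_neg v
  have := P354YO.opp m hp (fun v v0 v1 => ?_) (v := -N) y
    (by rw [s, m.symm p hp, s, n0, neg_neg]) y1 (neg_pos.2 n1)
  · rwa [s, neg_lt_zero, m.symm p hp] at this
  have k := (abs_le.1 (bd_val b v v)).1
  have k2 := hc p r v v1
  have k3 := mul_le_mul_of_nonneg_right ((le_div_iff₀ (by positivity)).1 he) (sq_nonneg ‖v‖)
  have k4 := pow_pos (norm_pos_iff.2 v0) 2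
  simp only [Pi.sub_apply] at k
  refine pos_of_mul_pos_right (a := c) ?_ c0.le
  nlinarith [mul_le_mul_of_nonneg_left k c0.le]

/-- The sign at the exit. -/
theorem exit_pos {Y : R4 → E5} (s : SA Y z) (b : Bilin (g (Ph Y z))) (k : ∀ a, kv Y (ey a) z = 0)
    (k1 : 0 < kv Y e1 z) (i : ∀ y, dη Y z y = 0 → y = 0) (hn : Nul (pb (Ph Y) g) z)
    (o : 0 < Om (pb (Ph Y) g) z) : 0 < g (Ph Y z) (fderiv ℝ (Ph Y) z e0) e1 := by
  obtain ⟨y, hy⟩ := P354LF.dη_surj i (-(fderiv ℝ (Ph Y) z e1).2.2)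
  have e : ((0, 0, y) : R4) = y.1 • ey 0 + y.2 • ey 1 := by simp [ey]
  have q : fderiv ℝ (Ph Y) z (e1 + (0, 0, y)) = kv Y e1 z • e1 := by
    have p : (fderiv ℝ (Ph Y) z (e1 + (0, 0, y))).2.2 = 0 := by
      rw [map_add, Prod.snd_add, Prod.snd_add]
      exact add_eq_zero_iff_eq_neg'.2 hy
    have p' : kv Y (e1 + (0, 0, y)) z = kv Y e1 z := by
      have k0 := k 0
      have k1 := k 1
      simp only [kv, e, map_add, map_smul] at k0 k1 ⊢
      simp [k0, k1]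
    rw [← p', kv, P354LF.xp_ap, p]
    refine Prod.ext ?_ (Prod.ext (by simp [dot, e1]) (p.trans (by simp [e1, Prod.ext_iff])))
    rw [P354LF.ph_fd s]
    simp [e1]
  have t : kv Y e1 z * g (Ph Y z) (fderiv ℝ (Ph Y) z e0) e1 = Om (pb (Ph Y) g) z := by
    have n0 := hn.2 0
    have n1 := hn.2 1
    rw [← b.smul_right, ← q, e]
    simp only [pb] at n0 n1
    simp only [map_add, map_smul, b.add_right, b.smul_right, n0, n1, Om, pb]
    ring
  exact pos_of_mul_pos_right (t ▸ o) k1.le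

/-- Composition with a map close to the identity. -/
theorem lipd (k : ℕ) : ∃ L, 1 ≤ L ∧ ∀ (u : R4 → X3) (F : R4 → R4) z C η,
    (∀ p ∈ segment ℝ (F z) z, JD (k + 1) u p C) → η ≤ 1 → JB k (fun x => F x - x) z η →
    JB k (fun x => u (F x) - u x) z (L * C * η) := by
  obtain ⟨L, l1, hL⟩ := P354YQ.lip k 2 one_le_two
  refine ⟨L, l1, fun u F z C η h e b => ?_⟩
  have c := (h z (right_mem_segment _ _ _)).fderiv.nonneg
  have := hL _ _ _ (fun x => u x - u z) F (fun x => x) z C η (fun p m => ?_)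
    (((b.jd.add JD.id).mono (by linarith)).congr (.of_forall fun x => (sub_add_cancel _ _).symm))
    (JD.id.mono one_le_two) b
  · simpa using this
  refine (((h p m).sub (JD.const _)).mono (add_zero _).le).jb ?_
  refine ((convex_segment _ _).norm_image_sub_le_of_norm_fderiv_le (𝕜 := ℝ)
    (fun p m => (h p m).sm.diff) (fun p m => (h p m).fderiv.zero) (right_mem_segment _ _ _)
    m).trans (mul_le_of_le_one_right c ?_)
  exact mem_closedBall_iff_norm.1 ((convex_closedBall z 1).segment_subset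
    (mem_closedBall_iff_norm.2 (b.zero.trans e)) (Metric.mem_closedBall_self zero_le_one) m)

/-! ### The domains -/

def Om0 (δ s2 : ℝ) : Set R4 := {z | z.2 ∈ Wk (1 / 10) 2 ∧ z.2.1 - δ < z.1 ∧ z.1 < s2 + 1}

theorem wk_open (w k : ℝ) : IsOpen (Wk w k) :=
  (isOpen_Ioo.preimage continuous_fst).inter (isOpen_lt continuous_snd.norm continuous_const)

theorem wk_sub {w : ℝ} (h : w ≤ 1 / 10) : Wk w 2 ⊆ Wk (1 / 10) 2 := fun _ m =>
  ⟨⟨by linarith [m.1.1], by linarith [m.1.2]⟩, m.2⟩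

theorem wk_cv (w k : ℝ) : Convex ℝ (Wk w k) := by
  have : Wk w k = Ioo (-(5 + k) * w) ((6 + k) * w) ×ˢ Metric.ball 0 (15 / 2 + k / 2) := by
    ext x
    simp [Wk, Wd]
  exact this ▸ (convex_Ioo _ _).prod (convex_ball _ _)

theorem o_open (w δ s2 : ℝ) :
    IsOpen {z : R4 | z.2 ∈ Wk w 2 ∧ z.2.1 - δ < z.1 ∧ z.1 < s2 + 1} :=
  ((wk_open w 2).preimage continuous_snd).inter ((isOpen_lt (by fun_prop) continuous_fst).inter
    (isOpen_lt continuous_fst continuous_const))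

theorem ub_open (ρ s2 : ℝ) : IsOpen (Ub ρ s2) :=
  (isOpen_lt continuous_snd.fst.abs continuous_const).inter
    ((isOpen_lt continuous_snd.snd.norm continuous_const).inter
    ((isOpen_lt (continuous_snd.fst.sub continuous_const) continuous_fst).inter
      (isOpen_lt continuous_fst continuous_const)))

theorem sp_open (s2 : ℝ) : IsOpen (Sp s2) :=
  ((wk_open _ 2).preimage continuous_snd).inter
    (isOpen_lt (continuous_fst.sub continuous_const).abs continuous_const)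

theorem om_cv (δ s2 : ℝ) : Convex ℝ (Om0 δ s2) :=
  ((wk_cv _ _).linear_preimage (LinearMap.snd ℝ ℝ X3)).inter fun x a y b s t h1 h2 h3 => by
    obtain rfl : t = 1 - s := by linarith
    change s * x.2.1 + (1 - s) * y.2.1 - δ < s * x.1 + (1 - s) * y.1 ∧
      s * x.1 + (1 - s) * y.1 < s2 + 1
    rcases h1.eq_or_lt with rfl | h
    · simpa using (show _ ∧ _ from b)
    · constructor <;> nlinarith [a.1, a.2, b.1, b.2]

theorem om_v {δ s2 : ℝ} (m : z ∈ Om0 δ s2) : |z.2.1| ≤ 4 / 5 ∧ ‖z.2.2‖ < 17 / 2 :=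
  ⟨abs_le.2 ⟨by linarith [m.1.1.1], by linarith [m.1.1.2]⟩, by linarith [show _ < _ from m.1.2]⟩

theorem om_seg {δ s2 s : ℝ} (hδ : 0 < δ) (h : 3 ≤ s2) (m : z ∈ Om0 δ s2)
    (hs : s ∈ uIcc z.2.1 z.1) : (s, z.2) ∈ Om0 δ s2 := by
  have := (abs_le.1 (om_v m).1).2
  have := m.2.1
  have := m.2.2
  rcases mem_uIcc.1 hs with k | k <;> exact ⟨m.1, by linarith [k.1], by linarith [k.2]⟩

theorem om_sg {δ s2 : ℝ} (hδ : 0 < δ) (h : 3 ≤ s2) : P354SN.Sg (Om0 δ s2) :=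
  ⟨o_open _ _ _, fun z m s hs => by
    have e : P354YQ.pt e0 P354SN.ts s z = (z.1 - s * (z.1 - z.2.1), z.2) := by
      simp [P354YQ.pt, P354SN.ts, e0, Prod.ext_iff]
    refine e ▸ om_seg hδ h m (mem_uIcc.2 ?_)
    rcases le_total z.2.1 z.1 with k | k
    · exact .inl ⟨by nlinarith [hs.2], by nlinarith [hs.1]⟩
    · exact .inr ⟨by nlinarith [hs.1], by nlinarith [hs.2]⟩⟩

theorem om_ub {ρ s2 : ℝ} (h : ρ ∈ Ioc (0 : ℝ) (1 / 2)) (m : z ∈ Om0 (ρ / 4) s2) {x : R4}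
    (e : ‖x - z‖ ≤ ρ / 4) : x ∈ Ub ρ s2 := by
  have a := abs_le.1 ((norm_fst_le (x - z)).trans e)
  have b := abs_le.1 (((norm_fst_le (x - z).2).trans (norm_snd_le _)).trans e)
  have c := norm_le_norm_sub_add x.2.2 z.2.2
  have d : ‖x.2.2 - z.2.2‖ ≤ ρ / 4 := ((norm_snd_le (x - z).2).trans (norm_snd_le _)).trans e
  have := abs_le.1 (om_v m).1
  simp only [Prod.fst_sub, Prod.snd_sub] at a b
  exact ⟨abs_lt.2 ⟨by linarith [h.2], by linarith [h.2]⟩, by linarith [h.2, (om_v m).2],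
    by linarith [m.2.1, h.1], by linarith [m.2.2, h.2]⟩

theorem sp_om {δ s2 : ℝ} (hδ : 0 < δ) (h : 3 ≤ s2) : Sp s2 ⊆ Om0 δ s2 := fun z m => by
  have := abs_lt.1 m.2
  exact ⟨m.1, by linarith [m.1.1.2], by linarith⟩

end Vale.Agent.P354SM
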