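import Vale.Agent.P354SM.Np1

/-!
The perturbation of the near rays: the geometry of the new chart and the exit.
-/

set_option maxSynthPendingDepth 3

open scoped ContDiff Nat
open Set Filter Topology

noncomputable section

namespace Vale.Agent.P354SM

open Vale.Agent.P354n (R4)
open Vale.Agent.P354H (X3)
open Vale.Agent.P354I (rm rp)
open Vale.Agent.P354R (Met Pull)
open Vale.Agent.P354XE (Tw pb gin rd ur Par Bd)
open Vale.Agent.P354XA (linL)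
open Vale.Agent.P354SN (Nc ts)
open Vale.Agent.P354YQ (SA JB JD)
open Vale.Agent.P354SA

variable {n k : ℕ} {C1 C2 B r0 r1 r2 s2 sc ρ T R η : ℝ} {q q' : Par} {σ : Bool} {J : X3 → R4}
  {Θ F : R4 → R4} {Y : R4 → E5} {g g0 g1 : Tw} {z : R4} {Ω D : Set R4}

theorem nc_jd (N : Nc k ρ η Ω D g0 g1 F) (m : z ∈ Ω) (e : η ≤ 1) : JD (k + 1) F z 2 :=
  (((N.pt z m).2.2.2.2.2.1.jd.add JD.id).mono (by linarith)).congr
    (.of_forall fun x => (sub_add_cancel _ _).symm)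

theorem nc_fd (N : Nc k ρ η Ω D g0 g1 F) (m : z ∈ Ω) (v : R4) :
    ‖fderiv ℝ F z v - v‖ ≤ η * ‖v‖ := by
  have := (fderiv ℝ (fun x => F x - x) z).le_of_opNorm_le
    (N.pt z m).2.2.2.2.2.1.jd.fderiv.zero v
  rwa [fderiv_fun_sub (SA.of_on N.pull.smooth N.pull.open' m).diff differentiableAt_fun_id,
    fderiv_fun_id] at this

section
variable (K : Kc (n + 12) C1 C2 B r0 r1 r2 s2 sc ρ T R q q' σ J Θ Y)
  (N : Nc (n + 8) (ρ / 4) η (Om0 (ρ / 4) s2) (Ub ρ s2) g0 g1 F)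
include K N

theorem geo (hB : 1 ≤ B) (e : 4 * B ^ 2 * η ≤ 1) (m : z ∈ Om0 (ρ / 4) s2) :
    (fderiv ℝ (Θ ∘ F) z e0).1 < 0 ∧ JD (n + 1) (Θ ∘ F) z ((n + 1)! * B * 2 ^ (n + 1)) ∧
      ∀ v, ‖v‖ ≤ 2 * B * ‖fderiv ℝ (Θ ∘ F) z v‖ := by
  have n0 : 0 ≤ η := (N.pt z m).2.2.2.2.2.1.nonneg
  have b0 : 0 < B := by linarith
  have n1 : η ≤ 1 / 4 := by nlinarith [mul_le_mul_of_nonneg_right (one_le_pow₀ (n := 2) hB) n0]
  have n2 : 2 * B * η < B⁻¹ := by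
    rw [← one_div, lt_div_iff₀ b0]
    nlinarith
  have P := K.pt _ (N.pull.maps m)
  have j := nc_jd N m (by linarith)
  have f : ‖fderiv ℝ F z e0 - e0‖ ≤ η := by simpa [e0, Prod.norm_def] using nc_fd N m e0
  have b : ‖fderiv ℝ Θ (F z)‖ ≤ B := (P.1.ord (l := 0 + 1) (by omega)).fderiv.zero
  have c := fderiv_comp z P.1.sm.diff j.sm.diff
  refine ⟨?_, (P.1.ord (by omega)).comp (j.ord (by omega)) one_le_two b0.le, fun v => ?_⟩
  · have := (abs_le.1 ((norm_fst_le _).trans (((fderiv ℝ Θ (F z)).le_of_opNorm_le b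
      (fderiv ℝ F z e0 - e0)).trans (mul_le_mul_of_nonneg_left f b0.le)))).2
    rw [map_sub, Prod.fst_sub] at this
    rw [c, ContinuousLinearMap.comp_apply]
    nlinarith [P.2.2.2.2.1]
  · have a := P.2.1 (fderiv ℝ F z v)
    have := norm_le_norm_add_norm_sub (fderiv ℝ F z v) v
    rw [c, ContinuousLinearMap.comp_apply]
    nlinarith [nc_fd N m v, norm_nonneg v]

theorem far_eq (m : z ∈ Om0 (ρ / 4) s2) (h : s2 - 1 < z.1) :
    ((q.lin ∘ Θ) ∘ F) z = Tq q' σ T (Ph (Yz fun x => zz Y (F x)) z) := by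
  have := ((K.pt _ (N.pull.maps m)).2.2.2.2.2.2.2.2 (by rw [(N.pt z m).1]; linarith)).1
  rwa [(N.pt z m).1] at this

theorem zz_near (hρ : ρ ∈ Ioc (0 : ℝ) (1 / 2)) (e : η ≤ 1) {L : ℝ}
    (hL : ∀ (u : R4 → X3) (F : R4 → R4) z C η,
      (∀ p ∈ segment ℝ (F z) z, JD (n + 9 + 1) u p C) → η ≤ 1 → JB (n + 9) (fun x => F x - x) z η →
      JB (n + 9) (fun x => u (F x) - u x) z (L * C * η)) (m : z ∈ Sp s2) :
    JD 9 (zz Y) z C2 ∧ JD (n + 12) (zz Y) z B ∧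
      JB (n + 9) (fun x => zz Y (F x) - zz Y x) z (L * B * η) := by
  have m' := sp_om (δ := ρ / 4) (by linarith [hρ.1]) K.par.2.1.1 m
  have l := (abs_lt.1 m.2).1
  have a := (K.pt z (om_ub hρ m' (by simp; linarith [hρ.1]))).2.2.2.2.2.2.2.2 (by linarith)
  refine ⟨a.2.1, a.2.2, hL _ _ _ _ _ (fun p k => ?_) e (N.pt z m').2.2.2.2.2.1⟩
  have b := mem_closedBall_iff_norm.1 ((convex_closedBall z (ρ / 4)).segment_subset
    (mem_closedBall_iff_norm.2 (N.pt z m').2.2.2.2.1)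
    (Metric.mem_closedBall_self (by linarith [hρ.1])) k)
  have c := (abs_le.1 ((norm_fst_le (p - z)).trans b)).1
  rw [Prod.fst_sub] at c
  exact ((K.pt p (om_ub hρ m' b)).2.2.2.2.2.2.2.2 (by linarith [hρ.2])).2.2.ord (by omega)

end

theorem jd_sl {f : R4 → E5} {s C : ℝ} {x : X3} (h : JD k f (s, x) C) (c : 0 ≤ C) :
    JD k (fun x => f (s, x)) x (k ! * C) := by
  have := h.comp (f := fun x : X3 => ((s, x) : R4)) (((JD.const s).mono zero_le_one).prod JD.id)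
    le_rfl c
  rwa [one_pow, mul_one] at this

/-- The exit for any chart which has the form of the far chart on the strip. -/
theorem exit_of {Φ : R4 → R4} {C C' C3 w : ℝ} (hw : w ≤ 1 / 10) (m : Met g D) (E : Ez C1 r2 s2 Y)
    (c : 0 < C1) (hq : |q'.a| < q'.M) (hr : rp q'.M q'.a < r2 - C1) (c0 : 0 ≤ C) (c1 : 0 ≤ C')
    (e2 : 8! * C ≤ C2) (e3 : n ! * C' ≤ C3)
    (h : ∀ z ∈ Sp s2, Φ z ∈ D ∧ Φ z = Tq q' σ T (Ph Y z) ∧ Nul (pb Φ g) z ∧ 0 < Om (pb Φ g) z ∧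
      JD 8 Y z C ∧ JD n Y z C') :
    Exit n C1 C2 C3 w s2 r2 (pb (Tq q' σ T) g) Y := by
  refine ⟨fun z a b => ?_, fun x a => ?_⟩
  · have mz : z ∈ Sp s2 := ⟨wk_sub hw a, b⟩
    obtain ⟨p1, p2, p3, p4, p5, p6, -⟩ := E z mz
    obtain ⟨k1, k2, k3, k4, -⟩ := h z mz
    have s : ContDiffAt ℝ ∞ (Tq q' σ T) (Ph Y z) := (linL q').contDiff.contDiffAt.comp _
      (P354SC.Th_cd hq (by linarith [(abs_le.1 p4).1, show (Ph Y z).2.1 = (Y z).1 from rfl]))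
    have e : pb Φ g z = pb (Ph Y) (pb (Tq q' σ T) g) z := by
      have e : Φ =ᶠ[𝓝 z] Tq q' σ T ∘ Ph Y :=
        ((sp_open s2).eventually_mem mz).mono fun x k => (h x k).2.1
      rw [← (P354YO.pb_comp (P354LF.sa_ph p1).at s).self_of_nhds]
      funext v v'
      simp only [pb, e.fderiv_eq, e.self_of_nhds]
    have n : Nul (pb (Ph Y) (pb (Tq q' σ T) g)) z := by simpa only [Nul, e] using k3
    refine ⟨p1, n, p2, exit_pos p1 (P354YO.bil_pb (k2 ▸ P354XA.met_bil m k1)) p2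
      ((inv_pos.2 c).trans_le p3.1) (fun y k => ?_) n (by simpa only [Om, e] using k4), p4, p5, p6⟩
    simpa [k] using p6 y
  · have mz : ((s2, x) : R4) ∈ Sp s2 := ⟨wk_sub hw a, by simp⟩
    obtain ⟨-, -, p3, -, -, -, p7, p9, p8⟩ := E _ mz
    refine ⟨p7, (jd_sl (h _ mz).2.2.2.2.1 c0).mono e2, (jd_sl (h _ mz).2.2.2.2.2 c1).mono e3, p3,
      p9, fun x' a' e => ?_⟩
    obtain ⟨v, y⟩ := x'
    obtain rfl : x.1 = v := e
    exact p8 y ⟨wk_sub hw a', by simp⟩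

end Vale.Agent.P354SM
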