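import Vale.Agent.P354SM.Np2
import Vale.Agent.P354YJ.Gin

/-!
The perturbation of the near rays: the new chart and its metric.
-/

set_option maxSynthPendingDepth 3

open scoped ContDiff Nat
open Set Filter Topology

noncomputable section

namespace Vale.Agent.P354SM

open Vale.Agent.P354n (R4)
open Vale.Agent.P354H (X3)
open Vale.Agent.P354R (Met Pull)
open Vale.Agent.P354RC (k2)
open Vale.Agent.P354XD (tb)
open Vale.Agent.P354XE (Tw pb gin rd Par Bd)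
open Vale.Agent.P354XA (linL)
open Vale.Agent.P354YO (bd_mono Sb)
open Vale.Agent.P354YR (pull_comp met_mono)
open Vale.Agent.P354SN (Nh Nc)
open Vale.Agent.P354CH (jb_one jb_le jb_pos)
open Vale.Agent.P354YQ (SA JB JD)
open Vale.Agent.P354SA

variable {n : ℕ} {C1 C2 B B1 r0 rr r2 s2 sc ρ T R η ε : ℝ} {q q' : Par} {σ : Bool} {J : X3 → R4}
  {Θ F : R4 → R4} {Y : R4 → E5} {g : Tw} {z : R4} {D : Set R4}

theorem inj_low {A : R4 →L[ℝ] R4} {B : ℝ} (h : ∀ v, ‖v‖ ≤ B * ‖A v‖) : Function.Injective A :=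
  (injective_iff_map_eq_zero _).2 fun v e => by simpa [e] using h v

theorem lin_low {M a : ℝ} (h : q.Near M a ε) (e : ε ≤ 1 / 2) (v : R4) : ‖v‖ ≤ 4 * ‖linL q v‖ := by
  obtain ⟨l, -, -, -, l4⟩ := P354LF.nr h e
  have := (P354LF.invL q).le_of_opNorm_le l4 (linL q v)
  rwa [P354LF.invL_ap, show P354YM.inv q (linL q v) = v from
    P354XM.inv_lin h.2.2.2.1 (by linarith) v] at this

theorem om_sub (hρ : ρ ∈ Ioc (0 : ℝ) (1 / 2)) : Om0 (ρ / 4) s2 ⊆ Ub ρ s2 := fun z m =>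
  om_ub hρ m (by simp; linarith [hρ.1])

variable (K : Kc (n + 12) C1 C2 B r0 rr r2 s2 sc ρ T R q q' σ J Θ Y) (hρ : ρ ∈ Ioc (0 : ℝ) (1 / 2))
  (r : 0 < rr)
  (pg : ∀ x ∈ Ub ρ s2, Bd (n + 11) (pb Θ (gin q.M q.a)) x B1 ∧
    ∀ v, ‖v‖ ≤ B1 * ‖tb (pb Θ (gin q.M q.a)) x v‖)
include K

include hρ in
theorem om_ts (m : z ∈ Om0 (ρ / 4) s2) : |z.1 - z.2.1| ≤ B + 2 := by
  have := abs_le.1 (om_v m).1
  exact abs_le.2 ⟨by linarith [m.2.1, hρ.2, K.par.2.1.1, K.par.2.1.2],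
    by linarith [m.2.2, K.par.2.1.2]⟩

include r in
theorem met0 : Met (pb Θ (gin q.M q.a)) (Ub ρ s2) := k2.1 Θ _ _ _ _
  ⟨ub_open ρ s2, isOpen_lt continuous_const P354XA.rd_cont, P354YJ.gin_met q.M q.a,
    fun x m => (K.pt x m).1.sm.at.contDiffWithinAt, fun x m => r.trans (K.pt x m).2.2.1.1,
    fun x m => inj_low (K.pt x m).2.1, fun _ _ _ _ => rfl⟩

include hρ r pg in
/-- The hypotheses of the theorem on close metrics. -/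
theorem st1 {Cp : ℝ} (lo : ∀ v, ‖v‖ ≤ 4 * ‖linL q v‖) (o : IsOpen D) (m : Met g D)
    (hB : B + 2 ≤ B1) (HQ : ∀ (h : Tw) (Θ : R4 → R4) z μ, Sb h (Θ z) →
      JD (n + 10 + 1) Θ z B → Bd (n + 10) h (Θ z) μ → Bd (n + 10) (pb Θ h) z (Cp * μ))
    (h : ∀ x ∈ Ub ρ s2, q.lin (Θ x) ∈ D ∧ Bd (n + 10) (pb q.lin g - gin q.M q.a) (Θ x) ε) :
    Pull (q.lin ∘ Θ) (pb Θ (pb q.lin g)) (Ub ρ s2) g D ∧
      Nh (n + 8) B1 B⁻¹ (ρ / 4) (Cp * ε) (Om0 (ρ / 4) s2) (Ub ρ s2) (pb Θ (gin q.M q.a))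
        (pb Θ (pb q.lin g)) := by
  have Pl : Pull q.lin (pb q.lin g) (q.lin ⁻¹' D) g D :=
    ⟨o.preimage (linL q).continuous, o, m, (linL q).contDiff.contDiffOn, fun _ m => m,
      fun y _ => (show fderiv ℝ q.lin y = _ from (linL q).fderiv) ▸ inj_low lo, fun _ _ _ _ => rfl⟩
  have PΘ : Pull Θ (pb Θ (pb q.lin g)) (Ub ρ s2) (pb q.lin g) (q.lin ⁻¹' D) :=
    ⟨ub_open ρ s2, Pl.open', k2.1 _ _ _ _ _ Pl, fun x m => (K.pt x m).1.sm.at.contDiffWithinAt,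
      fun x m => (h x m).1, fun x m => inj_low (K.pt x m).2.1, fun _ _ _ _ => rfl⟩
  have ρ0 : 0 < ρ / 4 := by linarith [hρ.1]
  exact ⟨pull_comp Pl PΘ, om_sg ρ0 K.par.2.1.1, om_cv _ _, PΘ.open', met0 K r, k2.1 _ _ _ _ _ PΘ,
    fun z m x e => have u := om_ub hρ m e
      ⟨u, (pg x u).1, HQ (pb q.lin g - gin q.M q.a) Θ x _ ((sb_met PΘ.isOpen PΘ.met (PΘ.maps u)).sub
        (P354YO.sb_gin (r.trans (K.pt x u).2.2.1.1))) ((K.pt x u).1.ord (by omega)) (h x u).2,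
        (pg x u).2⟩,
    fun z m => have k := K.met z (om_sub hρ m) _ rfl
      ⟨(om_ts K hρ m).trans hB, k.1, k.2.1, k.2.2.1⟩⟩

include hρ r pg in
/-- The bounds for the metric in the new chart. -/
theorem st2 {Φ : R4 → R4} {g1 : Tw} {Cz C2' C3 μ : ℝ}
    (N : Nc (n + 8) (ρ / 4) η (Om0 (ρ / 4) s2) (Ub ρ s2) (pb Θ (gin q.M q.a)) g1 F)
    (P1 : Pull Φ (pb F g1) (Om0 (ρ / 4) s2) g D) (b1 : 1 ≤ B) (hB : 2 * B + 3 ≤ B1)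
    (e1 : B1 * η ≤ 1 / 2) (e2 : η ≤ μ) (s0 : 0 ≤ sc) (hT : B + 2 < 5 / 3 * T) (cz : 1 ≤ Cz)
    (c2 : C2 + 1 ≤ C2') (c3 : Cz ≤ C3)
    (HD : ∀ g g' D z, IsOpen D → Met g D → Met g' D → z ∈ D → Bd 3 g z B1 →
      Bd 3 (g' - g) z μ → B1⁻¹ ≤ Om g z → B1⁻¹ ≤ dg g z → B1⁻¹ ≤ gm g 0 0 z →
      (2 * B1)⁻¹ ≤ Om g' z ∧ (2 * B1)⁻¹ ≤ dg g' z ∧ 0 < gm g' 0 0 z ∧
        |a0 g' z - a0 g z| ≤ 1 / 20 ∧ ∀ C0, ∀ rc ∈ Icc 1 B1, Shp C0 rc g z → Shp (C0 + 1) rc g' z)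
    (HZ : ∀ g D z r m C0 rc, IsOpen D → Met g D → z ∈ D → Bd (n + 2) g z (2 * B1) →
      (∀ v, ‖v‖ ≤ 2 * B1 * ‖tb g z v‖) → Nul g z → (2 * B1)⁻¹ ≤ Om g z → (2 * B1)⁻¹ ≤ dg g z →
      0 < gm g 0 0 z → r ∈ Icc 1 (2 * B1) → (2 * B1)⁻¹ ≤ m → Shp C0 rc g z →
      Rp n C0 Cz r m 1 rc g z) (m : z ∈ Om0 (ρ / 4) s2) :
    Nul (pb Φ g) z ∧ 0 < Om (pb Φ g) z ∧ (z.1 = z.2.1 → |a0 (pb Φ g) z| ≤ 1 / 20) ∧
      (z.2.1 ≤ z.1 → ∀ σe L, Rz n C2' C3 T L sc σe (pb Φ g) z) := by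
  have P2 : Pull Φ (pb Φ g) _ g D := { P1 with eq := fun _ _ _ _ => rfl }
  have oΩ := P2.open'
  have m2 := k2.1 _ _ _ _ _ P2
  have m3 := met_mono (met0 K r) (om_sub hρ)
  have η0 : 0 ≤ η := (N.pt z m).2.2.2.2.2.1.nonneg
  have df : Bd (n + 8) (pb Φ g - pb Θ (gin q.M q.a)) z η :=
    P354LF.bd_congr (N.pt z m).2.2.2.2.2.2 ((oΩ.eventually_mem m).mono fun y k v w =>
      congrArg (· - pb Θ (gin q.M q.a) y v w) (P1.eq y k v w).symm)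
  have nul : Nul (pb Φ g) z := by
    have := (N.pt z m).2.2.1
    simp only [P354SN.RF, P1.eq z m] at this
    exact this
  have bi : B1⁻¹ ≤ B⁻¹ := inv_anti₀ (by linarith) (by linarith)
  have k := K.met z (om_sub hρ m) _ rfl
  have p := pg z (om_sub hρ m)
  obtain ⟨z1, z2, z3, z4, z5⟩ := HD _ _ _ z oΩ m3 m2 m (bd_mono p.1 (by omega) le_rfl)
    (bd_mono df (by omega) e2) (bi.trans k.2.1) (bi.trans k.2.2.1) (bi.trans k.2.2.2.1)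
  refine ⟨nul, (inv_pos.2 (by linarith)).trans_le z1, fun h => by simpa [k.2.2.2.2.1 h] using z4,
    fun h σe L => ?_⟩
  have t1 := om_ts K hρ m
  have j1 := jb_le (z.1 - z.2.1)
  have j2 := jb_le (z.1 - z.2.1 - sc)
  have j3 := abs_sub (z.1 - z.2.1) sc
  rw [abs_of_nonneg s0] at j3
  have mm0 : (jb (z.1 - z.2.1))⁻¹ ≤ mm T σe (z.1 - z.2.1) :=
    le_add_of_nonneg_right (Real.rpow_nonneg (jb_pos _).le _)
  have s := sb_met oΩ m3 m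
  have s' := sb_met oΩ m2 m
  rw [Rz, if_neg (by linarith [le_abs_self (z.1 - z.2.1)])]
  exact rp_mono (HZ _ _ z _ _ _ _ oΩ m2 m (bd_mono (bd_add s s'
    (bd_mono p.1 (show n + 8 ≤ _ by omega) le_rfl) df) (by omega) (by nlinarith))
    (nd_near s s' p.2 (by linarith) df η0 e1) nul z1 z2 z3 ⟨jb_one _, by linarith⟩
    ((inv_anti₀ (jb_pos _) (by linarith)).trans mm0)
    ((z5 C2 _ ⟨jb_one _, by linarith [K.par.2.2.1]⟩ (k.2.2.2.2.2 h)).mono c2)) (by linarith) c3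
    ((inv_pos.2 (jb_pos _)).le.trans mm0) (jb_pos _).le

end Vale.Agent.P354SM
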