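import Vale.Agent.P354SA.Defs
import Vale.Agent.P354YQ.Ex

/-!
Two double null charts with the same top slice have the same ingoing rays.
-/

open scoped ContDiff
open Set Filter Topology

noncomputable section

namespace Vale.Agent.P354SM

open Vale.Agent.P354n (R4)
open Vale.Agent.P354H (X3)
open Vale.Agent.P354C (Ix met detP fr th eta)
open Vale.Agent.P354C.Ix
open Vale.Agent.P354R (Met Pull chr)
open Vale.Agent.P354RC (Rp Gm C1 B2 k2 p_at at_df at_fd surj_of_inj rp_of_met der_eq C1_ap)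
open Vale.Agent.P354XE (Tw Lor)
open Vale.Agent.P354SA (nv)

/-- The curve Z on [a, c] is the curve Z' on [a', c'] after the change ρ of the parameter. -/
def Rp2 {E : Type} (Z Z' : ℝ → E) (a b c a' b' c' : ℝ) : Prop :=
  ∃ ρ : ℝ → ℝ, Continuous ρ ∧ Monotone ρ ∧ ρ b = b' ∧
    ∀ t ∈ Icc a c, ρ t ∈ Icc a' c' → Z t = Z' (ρ t)

theorem Rp2.two {E : Type} {Z Z' : ℝ → E} {a b a' b' : ℝ} (h : Rp2 Z Z' a b b a' b' b')
    (hb : a ≤ b) (hb' : a' ≤ b') :
    (∃ s ∈ Icc a' b', Z a = Z' s) ∨ ∃ s ∈ Icc a b, Z s = Z' a' := by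
  obtain ⟨ρ, c, m, e, k⟩ := h
  rcases le_total a' (ρ a) with q | q
  · exact .inl ⟨_, ⟨q, e ▸ m hb⟩, k a (left_mem_Icc.2 hb) ⟨q, e ▸ m hb⟩⟩
  · obtain ⟨s, hs, es⟩ := intermediate_value_Icc hb c.continuousOn ⟨q, e.symm ▸ hb'⟩
    exact .inr ⟨s, hs, (k s hs ⟨es.ge, es.le.trans hb'⟩).trans (congrArg Z' es)⟩

/-- Two integral curves of F with different speeds. -/
theorem retime {E : Type} [NormedAddCommGroup E] [NormedSpace ℝ E] {F : E → E} {Z Z' : ℝ → E}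
    {l l' : ℝ → ℝ} {a b c a' b' c' : ℝ} (hb : b ∈ Icc a c) (hb' : b' ∈ Icc a' c')
    (hF : ∀ s ∈ Icc a c, ContDiffAt ℝ 1 F (Z s)) (hl : ∀ s ∈ Icc a c, ContDiffAt ℝ 1 l s ∧ 0 < l s)
    (hl' : ∀ s ∈ Icc a' c', ∀ᶠ r in 𝓝 s, ContinuousAt l' r ∧ 0 < l' r)
    (h : ∀ s ∈ Icc a c, ∀ᶠ r in 𝓝 s, HasDerivAt Z (l r • F (Z r)) r)
    (h' : ∀ s ∈ Icc a' c', ∀ᶠ r in 𝓝 s, HasDerivAt Z' (l' r • F (Z' r)) r) (e : Z b = Z' b') :
    Rp2 Z Z' a b c a' b' c' := by
  have ext : ∀ {l : ℝ → ℝ} {a c : ℝ} (b : ℝ), a ≤ c →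
      (∀ s ∈ Icc a c, ∀ᶠ r in 𝓝 s, ContinuousAt l r ∧ 0 < l r) →
      ∃ σ m : ℝ → ℝ, (∀ s, HasDerivAt σ (m s) s) ∧ StrictMono σ ∧ σ.Surjective ∧ σ b = 0 ∧
        (∀ s, 0 < m s) ∧ ∀ s ∈ Icc a c, m =ᶠ[𝓝 s] l := fun {l a c} b hb k => by
    obtain ⟨η, η0, hη⟩ := isCompact_Icc.exists_cthickening_subset_open
      (isOpen_setOfPred_eventually_nhds (p := fun r => ContinuousAt l r ∧ 0 < l r)) k
    have i : ∀ s, max (a - η) (min s (c + η)) ∈ Icc (a - η) (c + η) := fun s =>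
      ⟨le_max_left _ _, max_le (by linarith) (min_le_right _ _)⟩
    replace hη := Subset.trans (fun x (hx : x ∈ Icc (a - η) (c + η)) =>
      Metric.mem_cthickening_of_dist_le x (max a (min x c)) η (Icc a c)
        ⟨le_max_left _ _, max_le hb (min_le_right _ _)⟩ (by
          rw [Real.dist_eq, abs_le, max_def, min_def]
          split_ifs <;> constructor <;> linarith [hx.1, hx.2])) hη
    have ct : ContinuousOn l (Icc (a - η) (c + η)) := fun s hs =>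
      (hη hs).self_of_nhds.1.continuousWithinAt
    have cm : Continuous fun s => l (max (a - η) (min s (c + η))) :=
      ct.comp_continuous (by fun_prop) i
    obtain ⟨x, hx, mx⟩ := isCompact_Icc.exists_isMinOn ⟨_, i a⟩ ct
    have px := (hη hx).self_of_nhds.2
    have d := fun s => (cm.integral_hasStrictDerivAt b s).hasDerivAt
    have g := Convex.mul_sub_le_image_sub_of_le_deriv convex_univ (C := l x)
      (fun s _ => (d s).continuousAt.continuousWithinAt)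
      (fun s _ => (d s).differentiableAt.differentiableWithinAt) fun s _ => by
        rw [(d s).deriv]; exact mx (i s)
    refine ⟨_, _, d, fun s t st => by nlinarith [g s trivial t trivial st.le], ?_, by simp,
      fun s => (hη (i s)).self_of_nhds.2, fun s hs => ?_⟩
    · refine (continuous_iff_continuousAt.2 fun s => (d s).continuousAt).surjective
        (tendsto_atTop_mono' _ ((eventually_ge_atTop b).mono fun s hs => ?_)
          ((tendsto_atTop_add_const_right _ (-b) tendsto_id).const_mul_atTop px))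
        (tendsto_atBot_mono' _ ((eventually_le_atBot b).mono fun s hs => ?_)
          ((tendsto_atBot_add_const_right _ (-b) tendsto_id).const_mul_atBot px))
      · simpa [sub_eq_add_neg] using g b trivial s trivial hs
      · have := g s trivial b trivial hs
        simp only [intervalIntegral.integral_same, id] at this ⊢
        linarith
    · filter_upwards [Icc_mem_nhds (show a - η < s by linarith [hs.1])
        (show s < c + η by linarith [hs.2])] with r hr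
      rw [min_eq_left hr.2, max_eq_right hr.1]
  obtain ⟨σ, m, d, mo, -, z, -, q⟩ := ext b (hb.1.trans hb.2) fun s hs =>
    (((hl s hs).1.eventually (by simp)).mono fun _ u => u.continuousAt).and
      ((hl s hs).1.continuousAt.eventually (lt_mem_nhds (hl s hs).2))
  obtain ⟨σ', m', d', mo', su, z', p', q'⟩ := ext b' (hb'.1.trans hb'.2) hl'
  let ι := mo'.orderIsoOfSurjective σ' su
  have r1 : ∀ t, σ' (ι.symm t) = t := ι.apply_symm_apply
  have r2 : ι.symm (σ b) = b' := mo'.injective (by rw [r1, z, z'])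
  have dρ : ∀ s, HasDerivAt (fun s => ι.symm (σ s)) ((m' (ι.symm (σ s)))⁻¹ * m s) s := fun s =>
    ((d' _).of_local_left_inverse ι.symm.continuous.continuousAt (p' _).ne'
      (.of_forall r1)).comp s (d s)
  have mρ : Monotone fun s => ι.symm (σ s) := ι.symm.monotone.comp mo.monotone
  refine ⟨_, continuous_iff_continuousAt.2 fun s => (dρ s).continuousAt, mρ, r2, fun t ht k => ?_⟩
  have s1 := uIcc_subset_Icc ht hb
  refine (P354YQ.uniq (w := fun p => l p.1 • F p.2) (γ' := fun s => Z' (ι.symm (σ s)))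
    isPreconnected_uIcc right_mem_uIcc (fun s hs =>
      ((hl s (s1 hs)).1.comp (s, Z s) contDiffAt_fst).smul
        ((hF s (s1 hs)).comp (s, Z s) contDiffAt_snd)) (fun s hs => h s (s1 hs)) (fun s hs => ?_)
    (by rw [r2, e]) t left_mem_uIcc).eq_of_nhds
  have u : ι.symm (σ s) ∈ Icc a' c' := uIcc_subset_Icc k (r2.symm ▸ hb') (mρ.mapsTo_uIcc hs)
  filter_upwards [q s (s1 hs), (dρ s).continuousAt.eventually ((h' _ u).and (q' _ u))]
    with r u1 u2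
  have := u2.1.scomp r (dρ r)
  rwa [smul_smul, ← u2.2, mul_right_comm, inv_mul_cancel₀ (p' _).ne', one_mul, u1] at this

variable {Ψ Ψ' : R4 → R4} {h h' g : Tw} {H : R4 → B2} {B B' D : Set R4} {p q : R4} {m m' : R4 → ℝ}

/-- The lines along nv are the null rays of the levels of v = tau + x. -/
def Nv (h : Tw) (B : Set R4) (m : R4 → ℝ) : Prop :=
  ∀ p ∈ B, 0 < m p ∧ ∀ c, h p nv c = -(m p * (c.1 + c.2.1))

theorem nv_met {U : R4 → Ix → ℝ} (o : ∀ p ∈ B, U p O ≠ 0) : Nv (met U) B fun p => U p O ^ 2 :=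
  fun p hp => ⟨pow_pos' (o p hp), fun c => by
    have : eta (th (U p) nv) (th (U p) c) = -(c.1 + c.2.1) := by simp [eta, th, nv]; ring
    rw [met, this, mul_neg]⟩
  where pow_pos' {x : ℝ} (h : x ≠ 0) : 0 < x ^ 2 := by positivity

/-- The gradient of v. -/
def Wv (Ψ : R4 → R4) (m : R4 → ℝ) (q : R4) : R4 := (m q)⁻¹ • fderiv ℝ Ψ q nv

theorem m_cd (P : Pull Ψ h B g D) (N : Nv h B m) (hq : q ∈ B) : ContDiffAt ℝ ∞ m q :=
  (((k2.1 _ _ _ _ _ P).smooth nv (1, 0, 0, 0)).contDiffAt (P.open'.mem_nhds hq)).neg.congr_of_eventuallyEq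
    (by filter_upwards [P.open'.mem_nhds hq] with z hz; simp [(N z hz).2])

theorem W_der (P : Pull Ψ h B g D) (r : Rp g H D) (N : Nv h B m) (hq : q ∈ B) :
    DifferentiableAt ℝ (Wv Ψ m) q ∧
      fderiv ℝ (Wv Ψ m) q nv = m q • -Gm H (Ψ q) (Wv Ψ m q) (Wv Ψ m q) := by
  have s := m_cd P N hq
  have m0 := (N q hq).1.ne'
  have d1 := (at_df s).hasFDerivAt
  have d2 := (at_df ((at_fd (p_at P hq)).clm_apply (contDiffAt_const (c := nv)))).hasFDerivAt
  have d := ((hasFDerivAt_inv' m0).comp q d1).smul d2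
  have hy := P.maps hq
  refine ⟨d.differentiableAt, r.ext hy fun c => ?_⟩
  obtain ⟨c, rfl⟩ := surj_of_inj (P.inj _ hq) c
  have a := k2.2.2.2.2 _ _ _ _ _ P _ hq nv nv c
  have e : ∀ c : R4, (fun z => h z nv c) =ᶠ[𝓝 q] fun z => -(m z * (c.1 + c.2.1)) := fun c => by
    filter_upwards [P.open'.mem_nhds hq] with z hz using (N z hz).2 c
  have e' : ∀ c x : R4, P354n.deriv (fun z => h z nv c) q x = -(fderiv ℝ m q x * (c.1 + c.2.1)) :=
    fun c x => by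
      rw [der_eq (e c) (s.mul contDiffAt_const).neg, (d1.mul_const _).fun_neg.fderiv]; simp [mul_comm]
  have b := (P.eq _ hq nv c).symm.trans ((N q hq).2 c)
  rw [chr, e', e', r.chr hy, r.eq _ hy, ← r.gm hy] at a
  rw [r.eq _ hy] at b
  rw [show fderiv ℝ (Wv Ψ m) q = _ from d.fderiv, Wv, P354RC.Gm_smul1, P354RC.Gm_smul2]
  simp [nv] at a b ⊢
  simp only [b]
  field_simp
  linarith

/-- The curve of the points and of the gradients. -/
theorem ray_der (P : Pull Ψ h B g D) (r : Rp g H D) (N : Nv h B m) (p : R4) {s : ℝ}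
    (hs : p + s • nv ∈ B) : ∀ᶠ t in 𝓝 s, (ContDiffAt ℝ 1 (fun t : ℝ => m (p + t • nv)) t ∧
      0 < m (p + t • nv)) ∧ HasDerivAt (fun t : ℝ => (Ψ (p + t • nv), Wv Ψ m (p + t • nv)))
        (m (p + t • nv) • (Wv Ψ m (p + t • nv),
          -Gm H (Ψ (p + t • nv)) (Wv Ψ m (p + t • nv)) (Wv Ψ m (p + t • nv)))) t := by
  have d : ∀ t : ℝ, HasDerivAt (fun t : ℝ => p + t • nv) nv t := fun t => by
    simpa using ((hasDerivAt_id t).smul_const nv).const_add p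
  filter_upwards [(d s).continuousAt.eventually (P.open'.mem_nhds hs)] with t ht
  refine ⟨⟨((m_cd P N ht).of_le (by simp)).comp t (by fun_prop), (N _ ht).1⟩, ?_⟩
  have := ((at_df (p_at P ht)).hasFDerivAt.comp_hasDerivAt t (d t)).prodMk
    ((W_der P r N ht).1.hasFDerivAt.comp_hasDerivAt t (d t))
  rwa [(W_der P r N ht).2, ← one_smul ℝ (fderiv ℝ Ψ _ nv), ← mul_inv_cancel₀ (N _ ht).1.ne',
    mul_smul] at this

set_option maxSynthPendingDepth 3 in
theorem gm_cd2 (r : Rp g H D) {y : R4} (hy : y ∈ D) (w : R4) :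
    ContDiffAt ℝ ∞ (fun z : R4 × R4 => Gm H z.1 z.2 z.2) (y, w) := by
  have k : ContDiffAt ℝ ∞ (fun z : R4 × R4 => fderiv ℝ H z.1) (y, w) :=
    (at_fd (r.at hy)).comp (y, w) contDiffAt_fst
  have k' : ContDiffAt ℝ ∞ (fun z : R4 × R4 => (fderiv ℝ H z.1).flip) (y, w) :=
    (P354RC.at_flip (at_fd (r.at hy))).comp (y, w) contDiffAt_fst
  have k2 : ContDiffAt ℝ ∞ (fun z : R4 × R4 => ((fderiv ℝ H z.1).flip z.2).flip) (y, w) :=
    (ContinuousLinearMap.flipₗᵢ ℝ R4 R4 ℝ).contDiff.contDiffAt.comp _ (k'.clm_apply contDiffAt_snd)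
  have k3 : ContDiffAt ℝ ∞ (fun z : R4 × R4 => (H z.1).inverse) (y, w) :=
    (r.inv_cd hy).comp (y, w) contDiffAt_fst
  have k4 := (k.clm_apply contDiffAt_snd).clm_apply contDiffAt_snd
  exact k3.clm_apply (((k4.add k4).sub (k2.clm_apply contDiffAt_snd)).const_smul _)

/-- Rays with the same point and the same gradient at b, b'. -/
theorem rays (P : Pull Ψ h B g D) (P' : Pull Ψ' h' B' g D) (N : Nv h B m) (N' : Nv h' B' m')
    {p p' : R4} {a b c a' b' c' : ℝ} (hb : b ∈ Icc a c) (hb' : b' ∈ Icc a' c')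
    (i : ∀ s ∈ Icc a c, p + s • nv ∈ B) (i' : ∀ s ∈ Icc a' c', p' + s • nv ∈ B')
    (e : Ψ (p + b • nv) = Ψ' (p' + b' • nv)) (w : Wv Ψ m (p + b • nv) = Wv Ψ' m' (p' + b' • nv)) :
    Rp2 (fun s => Ψ (p + s • nv)) (fun s => Ψ' (p' + s • nv)) a b c a' b' c' := by
  obtain ⟨H, r⟩ := rp_of_met P.isOpen P.met
  have k := fun s hs => ray_der P r N p (i s hs)
  have k' := fun s hs => ray_der P' r N' p' (i' s hs)
  obtain ⟨ρ, r1, r2, r3, r4⟩ := retime (F := fun z : R4 × R4 => (z.2, -Gm H z.1 z.2 z.2)) hb hb'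
    (fun s hs => (contDiffAt_snd.prodMk (gm_cd2 r (P.maps (i s hs)) _).neg).of_le (by simp))
    (fun s hs => (k s hs).self_of_nhds.1)
    (fun s hs => (k' s hs).mono fun _ u => ⟨u.1.1.continuousAt, u.1.2⟩)
    (fun s hs => (k s hs).mono fun _ u => u.2) (fun s hs => (k' s hs).mono fun _ u => u.2)
    (Prod.ext e w)
  exact ⟨ρ, r1, r2, r3, fun t ht u => congrArg Prod.fst (r4 t ht u)⟩

/-- Two charts with the same slice through p, p' and the same v on it have the same gradient. -/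
theorem W_eq {U : R4 → Ix → ℝ} {Xf : R4 → R4} (l : Lor g D Xf) (P : Pull Ψ (met U) B g D)
    (P' : Pull Ψ' h' B' g D) (N' : Nv h' B' m') {p p' : R4} (hp : p ∈ B) (hp' : p' ∈ B')
    (o : U p O ≠ 0) (dt : detP (U p) ≠ 0) (e : Ψ p = Ψ' p')
    (f : g (Ψ p) (fderiv ℝ Ψ p nv) (Xf (Ψ p)) < 0)
    (f' : g (Ψ' p') (fderiv ℝ Ψ' p' nv) (Xf (Ψ' p')) < 0)
    (sl : ∀ ζ : X3, ∃ c : R4, c.1 + c.2.1 = ζ.1 ∧ fderiv ℝ Ψ p (0, ζ) = fderiv ℝ Ψ' p' c) :
    Wv Ψ (fun p => U p O ^ 2) p = Wv Ψ' m' p' := by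
  have hy := P.maps hp
  obtain ⟨c, hc⟩ := surj_of_inj (P.inj _ hp) (Wv Ψ' m' p')
  obtain ⟨ξ, hξ⟩ := surj_of_inj (P.inj _ hp) (Xf (Ψ p))
  have m0 := (N' _ hp').1
  have sm : ∀ (t : ℝ) a b, g (Ψ p) (t • a) b = t * g (Ψ p) a b := fun t a b => by
    rw [P.met.symm _ hy, (P.met.lin _ hy b).map_smul, P.met.symm _ hy, smul_eq_mul]
  have w : ∀ x, g (Ψ p) (Wv Ψ' m' p') (fderiv ℝ Ψ' p' x) = -(x.1 + x.2.1) := fun x => by
    rw [Wv, sm, e, ← P'.eq _ hp', (N' _ hp').2]; field_simp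
  have a1 : ∀ ζ : X3, met U p c (0, ζ) = -ζ.1 := fun ζ => by
    obtain ⟨x, x1, x2⟩ := sl ζ
    rw [P.eq _ hp, hc, x2, w, x1]
  have a2 : met U p c c = 0 := by
    rw [P.eq _ hp, hc, P.met.symm _ hy]
    conv_lhs => rw [Wv, sm, P.met.symm _ hy, ← Wv, w]
    simp [nv]
  have a3 : met U p c ξ < 0 := by
    rw [P.eq _ hp, hc, hξ, Wv, sm, e]; exact mul_neg_of_pos_of_neg (inv_pos.2 m0) f'
  have a4 : met U p nv ξ < 0 := by rwa [P.eq _ hp, hξ]
  have a5 : met U p ξ ξ < 0 := by rw [P.eq _ hp, hξ]; exact l.tl _ hy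
  have o2 : 0 < U p O ^ 2 := by positivity
  have b : ∀ x : Fin 4 → ℝ, x 0 + x 1 = 0 → U p O ^ 2 * eta (th (U p) c) x = -(x 0 - x 1) :=
    fun x hx => by
      have := a1 (∑ k, x k • fr (U p) k).2
      rw [show ((0 : ℝ), (∑ k, x k • fr (U p) k).2) = ∑ k, x k • fr (U p) k from Prod.ext (by
        simpa [Fin.sum_univ_four, fr, P354C.vec, P354C.E] using hx.symm) rfl, met,
        P354Q.th_fr dt] at this
      simpa [Fin.sum_univ_four, fr, P354C.vec, P354C.E, sub_eq_add_neg] using this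
  have b0 := b ![1, -1, 0, 0] (by simp)
  have b2 := b ![0, 0, 1, 0] (by simp)
  have b3 := b ![0, 0, 0, 1] (by simp)
  have n : th (U p) nv = ![0, 1, 0, 0] := by simp [th, nv]
  simp only [met, eta, n] at a2 a3 a4 a5 b0 b2 b3
  simp [o] at a2 a3 a4 a5 b0 b2 b3
  rw [b2, b3] at a2 a3
  have x0 : 0 < th (U p) ξ 0 := by linarith [(mul_pos_iff_of_pos_left o2).1 a4]
  have x1 : 0 < th (U p) ξ 1 := (mul_pos_iff_of_pos_left x0).1 (by
    rw [← neg_pos, ← mul_neg, mul_pos_iff_of_pos_left o2] at a5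
    linarith [mul_self_nonneg (th (U p) ξ 2), mul_self_nonneg (th (U p) ξ 3)])
  have c0 : th (U p) c 0 = 0 := by_contra fun q => by
    have : th (U p) c 1 = 0 := (mul_eq_zero.1 (show th (U p) c 0 * _ = 0 by linarith)).resolve_left q
    rw [this] at a3 b0
    have : U p O ^ 2 * th (U p) c 0 = -1 := by linarith
    have : U p O ^ 2 * th (U p) c 0 * th (U p) ξ 1 = -1 * _ := congrArg (· * _) this
    linarith
  rw [← hc, ← P354Q.fr_th dt c, Wv, ← map_smul, Fin.sum_univ_four, c0, b2, b3,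
    show th (U p) c 1 = (U p O ^ 2)⁻¹ by rw [c0] at b0; field_simp; linarith]
  simp [fr, P354C.vec, P354C.E, nv]

/-- The slices tau = T and tau = T' agree near the points (v, y), (v, y'). -/
theorem same' {U : R4 → Ix → ℝ} {Xf : R4 → R4} (l : Lor g D Xf) (P : Pull Ψ (met U) B g D)
    (P' : Pull Ψ' h' B' g D) (N' : Nv h' B' m') (o : ∀ p ∈ B, U p O ≠ 0 ∧ detP (U p) ≠ 0)
    {a T c a' T' c' v : ℝ} {y y' : ℝ × ℝ} (hT : T ∈ Icc a c) (hT' : T' ∈ Icc a' c')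
    (i : ∀ s ∈ Icc a c, (s, v - s, y) ∈ B) (i' : ∀ s ∈ Icc a' c', (s, v - s, y') ∈ B')
    (f : g (Ψ (T, v - T, y)) (fderiv ℝ Ψ (T, v - T, y) nv) (Xf (Ψ (T, v - T, y))) < 0)
    (f' : g (Ψ' (T', v - T', y')) (fderiv ℝ Ψ' (T', v - T', y') nv) (Xf (Ψ' (T', v - T', y'))) < 0)
    {j : X3 → ℝ × ℝ} (dj : DifferentiableAt ℝ j (v, y)) (ej : j (v, y) = y')
    (e : ∀ᶠ z in 𝓝 ((v, y) : X3), Ψ (T, z.1 - T, z.2) = Ψ' (T', z.1 - T', j z)) :
    Rp2 (fun s => Ψ (s, v - s, y)) (fun s => Ψ' (s, v - s, y')) a T c a' T' c' := by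
  have q : ∀ (s : ℝ) (y : ℝ × ℝ), ((0, v, y) : R4) + s • nv = (s, v - s, y) := fun s y => by
    simp [nv, sub_eq_add_neg]
  have hp := i T hT
  have hp' := i' T' hT'
  have e0 : Ψ (T, v - T, y) = Ψ' (T', v - T', y') := ej ▸ e.self_of_nhds
  have := rays P P' (nv_met fun p hp => (o p hp).1) N' (p := (0, v, y)) (p' := (0, v, y')) hT hT'
    (by simpa only [q] using i) (by simpa only [q] using i') (by simpa only [q] using e0) (by
      simp only [q]
      refine W_eq l P P' N' hp hp' (o _ hp).1 (o _ hp).2 e0 f f' fun ζ => ?_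
      have d := HasFDerivAt.comp ((v, y) : X3) (g := Ψ) (f := fun z => (T, z.1 - T, z.2))
        (at_df (p_at P hp)).hasFDerivAt
        ((hasFDerivAt_const T _).prodMk ((hasFDerivAt_fst.sub_const T).prodMk hasFDerivAt_snd))
      have d' := HasFDerivAt.comp ((v, y) : X3) (g := Ψ') (f := fun z : X3 => (T', z.1 - T', j z))
        (by simpa only [ej] using (at_df (p_at P' hp')).hasFDerivAt)
        ((hasFDerivAt_const T' _).prodMk ((hasFDerivAt_fst.sub_const T').prodMk dj.hasFDerivAt))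
      exact ⟨(0, ζ.1, fderiv ℝ j (v, y) ζ), zero_add _,
        congrArg (· ζ) (d.unique (d'.congr_of_eventuallyEq e))⟩)
  simpa only [q] using this

theorem same {U : R4 → Ix → ℝ} {Xf : R4 → R4} (l : Lor g D Xf) (P : Pull Ψ (met U) B g D)
    (P' : Pull Ψ' h' B' g D) (N' : Nv h' B' m') (o : ∀ p ∈ B, U p O ≠ 0 ∧ detP (U p) ≠ 0)
    {a T a' T' v : ℝ} {y y' : ℝ × ℝ} (hT : a ≤ T) (hT' : a' ≤ T')
    (i : ∀ s ∈ Icc a T, (s, v - s, y) ∈ B) (i' : ∀ s ∈ Icc a' T', (s, v - s, y') ∈ B')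
    (f : g (Ψ (T, v - T, y)) (fderiv ℝ Ψ (T, v - T, y) nv) (Xf (Ψ (T, v - T, y))) < 0)
    (f' : g (Ψ' (T', v - T', y')) (fderiv ℝ Ψ' (T', v - T', y') nv) (Xf (Ψ' (T', v - T', y'))) < 0)
    {j : X3 → ℝ × ℝ} (dj : DifferentiableAt ℝ j (v, y)) (ej : j (v, y) = y')
    (e : ∀ᶠ z in 𝓝 ((v, y) : X3), Ψ (T, z.1 - T, z.2) = Ψ' (T', z.1 - T', j z)) :
    (∃ s ∈ Icc a' T', Ψ (a, v - a, y) = Ψ' (s, v - s, y')) ∨
      ∃ s ∈ Icc a T, Ψ (s, v - s, y) = Ψ' (a', v - a', y') :=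
  (same' l P P' N' o (right_mem_Icc.2 hT) (right_mem_Icc.2 hT') i i' f f' dj ej e).two hT hT'

/-- The ray of Ψ lies on the ray of Ψ' when the latter ends at a point which the former does not
meet before its end. -/
theorem same_sub {U : R4 → Ix → ℝ} {Xf : R4 → R4} (l : Lor g D Xf) (P : Pull Ψ (met U) B g D)
    (P' : Pull Ψ' h' B' g D) (N' : Nv h' B' m') (o : ∀ p ∈ B, U p O ≠ 0 ∧ detP (U p) ≠ 0)
    {a T a' T' v : ℝ} {y y' : ℝ × ℝ} (hT' : a' ≤ T')
    (i : ∀ s ∈ Icc a T, (s, v - s, y) ∈ B) (i' : ∀ s ∈ Icc a' T', (s, v - s, y') ∈ B')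
    (f : g (Ψ (T, v - T, y)) (fderiv ℝ Ψ (T, v - T, y) nv) (Xf (Ψ (T, v - T, y))) < 0)
    (f' : g (Ψ' (T', v - T', y')) (fderiv ℝ Ψ' (T', v - T', y') nv) (Xf (Ψ' (T', v - T', y'))) < 0)
    {j : X3 → ℝ × ℝ} (dj : DifferentiableAt ℝ j (v, y)) (ej : j (v, y) = y')
    (e : ∀ᶠ z in 𝓝 ((v, y) : X3), Ψ (T, z.1 - T, z.2) = Ψ' (T', z.1 - T', j z))
    (n : ∀ s ∈ Ioc a T, Ψ (s, v - s, y) ≠ Ψ' (a', v - a', y')) :
    ∀ t ∈ Icc a T, ∃ s ∈ Icc a' T', Ψ (t, v - t, y) = Ψ' (s, v - s, y') := fun t ht =>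
  (same l P P' N' o ht.2 hT' (fun s hs => i s ⟨ht.1.trans hs.1, hs.2⟩) i' f f' dj ej e).elim id
    fun ⟨s, hs, u⟩ => ⟨a', left_mem_Icc.2 hT', by
      obtain rfl : s = t := le_antisymm ((not_lt.1 fun k => n s ⟨k, hs.2⟩ u).trans ht.1) hs.1
      exact u⟩

end Vale.Agent.P354SM
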