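import Vale.Agent.P354SM.Ray
import Vale.Agent.P354KX.Defs
import Vale.Agent.P354P.Slice

/-!
SAME: the two charts of the slab have the same rays.
-/

open scoped ContDiff
open Set Filter Topology

noncomputable section

namespace Vale.Agent.P354SM

open Vale.Agent.P354n (R4)
open Vale.Agent.P354H (X3)
open Vale.Agent.P354I (X)
open Vale.Agent.P354C (Ix met)
open Vale.Agent.P354E (sg)
open Vale.Agent.P354P (rr fz)
open Vale.Agent.P354RC (p_at at_df at_fd)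
open Vale.Agent.P354XE (Tw Lor Tm)
open Vale.Agent.P354XB (Win)
open Vale.Agent.P354EN (Dm)
open Vale.Agent.P354KX

/-- The point with the time s on the ray z. -/
def ry (z : X3) (s : ℝ) : R4 := (s, z.1 - s, z.2)

theorem ry_eq (p : R4) : ry (vv p, p.2.2) p.1 = p := by simp [ry, vv]

theorem ry_ct : Continuous fun x : ℝ × X3 => ry x.2 x.1 := by unfold ry; fun_prop

theorem ry_mem {T δ R w s : ℝ} {z : X3} (hz : z ∈ Win R w 6) (hs : s ∈ Ioo (-δ) (T + δ)) :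
    ry z s ∈ Dm T δ R w := ⟨hs, by simpa [ry] using hz.1, hz.2⟩

theorem rr_ne {z : X3} (h : z.2 ≠ 0) : rr (0, z) ≠ 0 := fun e => h (by
  have e' : z.2.1 ^ 2 + z.2.2 ^ 2 = 0 := e
  exact Prod.ext (by simp; nlinarith) (by simp; nlinarith))

theorem fz_le {z : X3} (h : 1 / 2 ≤ ‖z.2‖) : ‖(fz z).2‖ ≤ 2 := by
  have a : ∀ x, x ^ 2 ≤ z.2.1 ^ 2 + z.2.2 ^ 2 → ‖x / (z.2.1 ^ 2 + z.2.2 ^ 2)‖ ≤ 2 := fun x hx => by
    have : 1 / 4 ≤ z.2.1 ^ 2 + z.2.2 ^ 2 := by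
      rcases le_max_iff.1 h with k | k <;> nlinarith [sq_abs z.2.1, sq_abs z.2.2, sq_nonneg z.2.1,
        sq_nonneg z.2.2, show (1 / 2 : ℝ) ≤ |_| from k]
    rw [Real.norm_eq_abs, abs_div, abs_of_pos (by linarith : 0 < z.2.1 ^ 2 + z.2.2 ^ 2), div_le_iff₀ (by linarith)]
    exact abs_le_of_sq_le_sq (by nlinarith) (by linarith)
  exact max_le (a z.2.1 (by nlinarith [sq_nonneg z.2.2])) (a z.2.2 (by nlinarith [sq_nonneg z.2.1]))

theorem ne_of {z : X3} (h : 1 / 2 ≤ ‖z.2‖) : z.2 ≠ 0 := fun e => by rw [e] at h; norm_num at h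

theorem fz_mem {R w : ℝ} {z : X3} (hz : z ∈ Win R w 6) (h : 1 / 2 ≤ ‖z.2‖) : fz z ∈ Win R w 6 :=
  ⟨hz.1, (fz_le h).trans_lt (by norm_num)⟩

theorem fz_cd {z : X3} (h : z.2 ≠ 0) : ContDiffAt ℝ ∞ fz z :=
  ((P354P.flip_smooth (rr_ne h)).comp z (contDiffAt_const.prodMk contDiffAt_id)).snd

theorem win_open (R w : ℝ) : IsOpen (Win R w 6) :=
  (isOpen_Ioo.preimage continuous_fst).inter (isOpen_lt continuous_snd.norm continuous_const)

variable {g : Tw} {D : Set R4} {Xf : R4 → R4} {J : X → R4} {b σ : Bool} {T δ T' δ' R w e : ℝ}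
  {U U' : R4 → Ix → ℝ} {Ψ Ψ' : R4 → R4} {j j' : X3 → X} {z : X3}

theorem rho (l : Lor g D Xf) (S : Sb g D Xf J b σ T δ R w U Ψ j)
    (S' : Sb g D Xf J b (!σ) T' δ' R w U' Ψ' j') (e0 : 0 ≤ e) (e1 : e < δ) (e2 : e < δ')
    (hz : z ∈ Win R w 6) (h : 1 / 2 ≤ ‖z.2‖) : ∃ ρ : ℝ → ℝ, Continuous ρ ∧ Monotone ρ ∧ ρ 0 = 0 ∧
      ρ T = T' ∧ ∀ t ∈ Icc (-e) (T + e), ρ t ∈ Icc (-e) (T' + e) →
        Ψ (ry z t) = Ψ' (ry (fz z) (ρ t)) := by
  have T0 := S.pos.1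
  have T1 := S'.pos.1
  have i : ∀ s ∈ Icc (-e) (T + e), ry z s ∈ Dm T δ R w := fun s hs =>
    ry_mem hz ⟨by linarith [hs.1], by linarith [hs.2]⟩
  have i' : ∀ s ∈ Icc (-e) (T' + e), ry (fz z) s ∈ Dm T' δ' R w := fun s hs =>
    ry_mem (fz_mem hz h) ⟨by linarith [hs.1], by linarith [hs.2]⟩
  have hT : T ∈ Icc (-e) (T + e) := ⟨by linarith, by linarith⟩
  have hT' : T' ∈ Icc (-e) (T' + e) := ⟨by linarith, by linarith⟩
  have c := fz_cd (ne_of h)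
  obtain ⟨ρ, r1, r2, r3, r4⟩ := same' l S.pull S'.pull (nv_met fun p hp => (S'.fu.2 p hp).1.ne')
    (fun p hp => ⟨(S.fu.2 p hp).1.ne', (S.fu.2 p hp).2.1⟩) hT hT' i i' (S.fut _ (i T hT))
    (S'.fut _ (i' T' hT')) (j := fun x => (fz x).2) (c.differentiableAt (by simp)).snd rfl (by
      filter_upwards [(win_open R w).mem_nhds hz, c.continuousAt.eventually
        ((win_open R w).mem_nhds (fz_mem hz h)), continuous_snd.continuousAt.eventually_ne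
        (ne_of h)] with x h1 h2 h3
      refine (S.top x h1).trans (.symm ((S'.top _ h2).trans ?_))
      rw [lb, lb, P354P.phi_fz (rr_ne h3)])
  have b0 : (Ψ (ry z 0)).1 = 0 := by
    rw [show ry z 0 = (0, z) by simp [ry], S.bot z hz]; rfl
  have b1 : (Ψ' (ry (fz z) 0)).1 = 0 := by
    rw [show ry (fz z) 0 = (0, fz z) by simp [ry], S'.bot _ (fz_mem hz h)]; rfl
  refine ⟨ρ, r1, r2, le_antisymm (not_lt.1 fun q => ?_) (not_lt.1 fun q => ?_), r3, r4⟩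
  · have m : ρ 0 ∈ Icc (-e) (T' + e) := ⟨by linarith, by linarith [r2 T0.le]⟩
    exact (S'.up _ (i' _ m) q).ne' ((congrArg Prod.fst (r4 0 ⟨by linarith, by linarith⟩ m)).symm.trans
      b0)
  · obtain ⟨s, hs, es⟩ := intermediate_value_Icc T0.le r1.continuousOn ⟨q.le, r3.symm ▸ T1.le⟩
    have m : s ∈ Icc (-e) (T + e) := ⟨by linarith [hs.1], by linarith [hs.2]⟩
    have u := congrArg Prod.fst (r4 s m ⟨by linarith, by linarith⟩)
    simp only [es] at u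
    exact (S.up _ (i s m) (hs.1.lt_of_ne fun v => q.ne (by rwa [← v] at es))).ne' (u.trans b1)

/-- Compact sets of rays. -/
def Kz (R w x y : ℝ) : Set X3 := {z | z.1 ∈ Icc (R - 23 / 8 * w) (R + 31 / 8 * w) ∧ ‖z.2‖ ∈ Icc x y}

theorem Kz_cp (R w x y : ℝ) : IsCompact (Kz R w x y) :=
  (isCompact_Icc.prod (isCompact_closedBall (0 : ℝ × ℝ) y)).of_isClosed_subset
    ((isClosed_Icc.preimage continuous_fst).inter (isClosed_Icc.preimage continuous_snd.norm))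
    fun _ h => ⟨h.1, mem_closedBall_zero_iff.2 h.2.2⟩

theorem Kz_win {x y : ℝ} (w0 : 0 < w) (hy : y ≤ 5) (h : z ∈ Kz R w x y) : z ∈ Win R w 6 :=
  ⟨⟨by linarith [h.1.1], by linarith [h.1.2]⟩, by linarith [h.2.2]⟩

/-- The properties which hold near the two ends. -/
def Ed (σ : Bool) (T T' R w e : ℝ) (Ψ Ψ' : R4 → R4) (η : ℝ) : Prop :=
  (∀ z ∈ Kz R w 0 5, 0 < (fderiv ℝ Ψ (ry z η) nv).1) ∧
  (∀ z ∈ Kz R w 0 (1 / 2), 0 < sg σ * (Ψ (ry z η)).2.2.2) ∧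
  ∀ z ∈ Kz R w (1 / 2) 5, Ψ (ry z η) ≠ Ψ' (ry (fz z) (-e)) ∧
    Ψ (ry z (T + η)) ≠ Ψ' (ry (fz z) (T' + e))

theorem ed (l : Lor g D Xf) (S : Sb g D Xf J b σ T δ R w U Ψ j)
    (S' : Sb g D Xf J b (!σ) T' δ' R w U' Ψ' j') (e0 : 0 < e) (e1 : e < δ) (e2 : e < δ')
    (t : ∀ z ∈ Win R w 6, Tm g Xf (fun x => x.1) (Ψ (0, z))) :
    ∀ᶠ η in 𝓝 0, Ed σ T T' R w e Ψ Ψ' η := by
  obtain ⟨T0, d0, w0⟩ := S.pos
  have T1 := S'.pos.1
  have m0 : ∀ z ∈ Win R w 6, ry z 0 ∈ Dm T δ R w := fun z hz => ry_mem hz ⟨by linarith, by linarith⟩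
  have c0 : ∀ z ∈ Win R w 6, ContinuousAt (fun x : ℝ × X3 => Ψ (ry x.2 x.1)) (0, z) := fun z hz =>
    ContinuousAt.comp (g := Ψ) (p_at S.pull (m0 z hz)).continuousAt ry_ct.continuousAt
  refine ((Kz_cp ..).eventually_forall_of_forall_eventually fun z hz => ?_).and
    (((Kz_cp ..).eventually_forall_of_forall_eventually fun z hz => ?_).and
      ((Kz_cp ..).eventually_forall_of_forall_eventually fun z hz => ?_))
  · have hz := Kz_win w0 le_rfl hz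
    have m := m0 z hz
    refine (ContinuousAt.comp (g := fun p => (fderiv ℝ Ψ p nv).1) (x := (0, z))
      ((at_fd (p_at S.pull m)).clm_apply contDiffAt_const).fst.continuousAt
      ry_ct.continuousAt).eventually (lt_mem_nhds ?_)
    have := (P354LN.ms_of l (S.pull.maps m) (by simpa [ry] using t z hz)).2 (fderiv ℝ Ψ (ry z 0) nv)
      ⟨fun q => by simpa [nv] using S.pull.inj _ m (q.trans (map_zero _).symm), by
        rw [← S.pull.eq _ m]
        exact ((nv_met fun p hp => (S.fu.2 p hp).1.ne') _ m).2 nv |>.trans_le (by simp [nv]),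
        (S.fut _ m).le⟩
    rwa [fderiv_fst] at this
  · have hw := Kz_win w0 (by norm_num) hz
    exact (continuousAt_const.mul (c0 z hw).snd.snd.snd).eventually
      (lt_mem_nhds (S.pole _ (m0 z hw) le_rfl hz.2.2))
  · have hw := Kz_win w0 le_rfl hz
    have hf := fz_mem hw hz.2.1
    obtain ⟨ρ, -, -, r0, r1, r⟩ := rho l S S' e0.le e1 e2 hw hz.2.1
    have c1 : ∀ s ∈ Icc (-e) (T' + e), ry (fz z) s ∈ Dm T' δ' R w ∧
        ContinuousAt (fun x : ℝ × X3 => Ψ' (ry (fz x.2) s)) (0, z) := fun s hs =>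
      have m := ry_mem (T := T') (δ := δ') hf (s := s) ⟨by linarith [hs.1], by linarith [hs.2]⟩
      ⟨m, ContinuousAt.comp (g := Ψ') (p_at S'.pull m).continuousAt (ry_ct.continuousAt.comp
        (f := fun x : ℝ × X3 => (s, fz x.2)) (continuousAt_const.prodMk
          ((fz_cd (ne_of hz.2.1)).continuousAt.comp_of_eq continuousAt_snd rfl)))⟩
    have a0 := c1 0 ⟨by linarith, by linarith⟩
    have a1 := c1 (-e) ⟨le_rfl, by linarith⟩
    have a2 := c1 T' ⟨by linarith, by linarith⟩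
    have a3 := c1 (T' + e) ⟨by linarith, le_rfl⟩
    have c2 : ContinuousAt (fun x : ℝ × X3 => Ψ (ry x.2 (T + x.1))) (0, z) :=
      ContinuousAt.comp (g := Ψ) (p_at S.pull (ry_mem hw ⟨by linarith, by linarith⟩)).continuousAt
        (ry_ct.continuousAt.comp (f := fun x : ℝ × X3 => (T + x.1, x.2)) (by fun_prop))
    refine (((c0 z hw).prodMk a1.2).eventually (isClosed_diagonal.isOpen_compl.mem_nhds
      fun q => ?_)).and ((c2.prodMk a3.2).eventually (isClosed_diagonal.isOpen_compl.mem_nhds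
        fun q => ?_))
    · have u := r 0 ⟨by linarith, by linarith⟩ ⟨by linarith, by linarith⟩
      rw [r0] at u
      linarith [show (0 : ℝ) = -e from congrArg Prod.fst (S'.inj a0.1 a1.1 (u.symm.trans q))]
    · have u := r T ⟨by linarith, by linarith⟩ ⟨by linarith, by linarith⟩
      rw [r1, ← add_zero T] at u
      linarith [show T' = T' + e from congrArg Prod.fst (S'.inj a2.1 a3.1 (u.symm.trans q))]

theorem cov (l : Lor g D Xf) (S : Sb g D Xf J b σ T δ R w U Ψ j)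
    (S' : Sb g D Xf J b (!σ) T' δ' R w U' Ψ' j') {d : ℝ} (e0 : 0 ≤ e) (de : d ≤ e) (e1 : e < δ)
    (e2 : e < δ') (E : ∀ η ∈ Icc (-d) d, Ed σ T T' R w e Ψ Ψ' η) {p : R4} (hp : p ∈ Dm T δ R w)
    (k : p.1 ∈ Icc 0 T ∨ p ∈ Cb T d R w) (h : 1 / 2 ≤ ‖p.2.2‖) :
    ∃ s ∈ Icc (-e) (T' + e), (0 ≤ p.1 → 0 ≤ s) ∧ Ψ p = Ψ' (ry (fz (vv p, p.2.2)) s) := by
  have T0 := S.pos.1
  have T1 := S'.pos.1
  obtain ⟨ρ, rc, rm, r0, r1, r⟩ := rho l S S' e0 e1 e2 (z := (vv p, p.2.2)) hp.2 h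
  have m : p.1 ∈ Icc (-e) (T + e) ∧ ρ p.1 ∈ Icc (-e) (T' + e) := by
    rcases k with k | k
    · exact ⟨⟨by linarith [k.1], by linarith [k.2]⟩, by linarith [rm k.1], by linarith [rm k.2]⟩
    have z : ((vv p, p.2.2) : X3) ∈ Kz R w (1 / 2) 5 := ⟨k.2.1, h, k.2.2⟩
    refine ⟨⟨by linarith [k.1.1], by linarith [k.1.2]⟩, not_lt.1 fun q => ?_, not_lt.1 fun q => ?_⟩
    · have p0 : p.1 ≤ 0 := not_lt.1 fun u => by linarith [rm u.le]
      obtain ⟨s, hs, es⟩ := intermediate_value_Icc p0 rc.continuousOn ⟨q.le, by linarith⟩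
      exact ((E s ⟨k.1.1.trans hs.1, by linarith [hs.2, k.1.1]⟩).2.2 _ z).1 (es ▸ r s
        ⟨by linarith [hs.1, k.1.1], by linarith [hs.2]⟩ ⟨es.ge, by linarith⟩)
    · have p0 : T ≤ p.1 := not_lt.1 fun u => by linarith [rm u.le]
      obtain ⟨s, hs, es⟩ := intermediate_value_Icc p0 rc.continuousOn ⟨by linarith, q.le⟩
      refine ((E (s - T) ⟨by linarith [hs.1, k.1.2], by linarith [hs.2, k.1.2]⟩).2.2 _ z).2 ?_
      rw [add_sub_cancel, ← es]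
      exact r s ⟨by linarith [hs.1], by linarith [hs.2, k.1.2]⟩ ⟨by linarith, es.le⟩
  exact ⟨_, m.2, fun u => r0 ▸ rm u, (congrArg Ψ (ry_eq p)).symm.trans (r _ m.1 m.2)⟩

theorem same_ok : SAME := by
  intro g D Xf J b T δ R w U Ψ j l S e e0 he
  have w0 := (S true).1.pos.2.2
  have nn : ∀ σ, Sb g D Xf J b (!σ) (T (!σ)) (δ (!σ)) R w (U (!σ)) (Ψ (!σ)) (j (!σ)) :=
    fun σ => (S _).1
  obtain ⟨r, r0, hr⟩ := Metric.eventually_nhds_iff.1 (eventually_all.2 fun σ =>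
    ed l (S σ).1 (nn σ) e0 (he σ) (he _) (S σ).2)
  have d0 : 0 < min e (r / 2) := lt_min e0 (by linarith)
  have d1 := min_le_left e (r / 2)
  have E : ∀ σ, ∀ η ∈ Icc (-min e (r / 2)) (min e (r / 2)), _ := fun σ η hη =>
    hr (by rw [Real.dist_eq, sub_zero]; linarith [abs_le.2 hη, min_le_right e (r / 2)]) σ
  generalize min e (r / 2) = d at *
  have cd : ∀ σ, Cb (T σ) d R w ⊆ Dm (T σ) (δ σ) R w := fun σ p hp =>
    ⟨⟨by linarith [hp.1.1, he σ], by linarith [hp.1.2, he σ]⟩, (Kz_win w0 le_rfl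
      (z := (vv p, p.2.2)) ⟨hp.2.1, norm_nonneg _, hp.2.2⟩)⟩
  have a : ∀ σ, ∀ p ∈ Cb (T σ) d R w, ∀ p' ∈ Cb (T (!σ)) d R w, Ψ σ p = Ψ (!σ) p' →
      1 / 2 ≤ ‖p.2.2‖ → vv p = vv p' := fun σ p hp p' hp' q h => by
    obtain ⟨s, hs, -, u⟩ := cov l (S σ).1 (nn σ) e0.le d1 (he σ) (he _) (E σ) (cd σ hp) (.inr hp) h
    rw [(nn σ).inj (cd _ hp') (ry_mem (fz_mem (z := (vv p, p.2.2)) (cd σ hp).2 h)
      ⟨by linarith [hs.1, he (!σ)], by linarith [hs.2, he (!σ)]⟩) (q.symm.trans u)]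
    exact (add_sub_cancel s _).symm
  have po : ∀ σ, ∀ p ∈ Cb (T σ) d R w, ‖p.2.2‖ ≤ 1 / 2 → 0 < sg σ * (Ψ σ p).2.2.2 :=
    fun σ p hp h => (le_total 0 p.1).elim (fun u => (S σ).1.pole p (cd σ hp) u h) fun u =>
      ry_eq p ▸ (E σ p.1 ⟨hp.1.1, by linarith⟩).2.1 (vv p, p.2.2) ⟨hp.2.1, norm_nonneg _, h⟩
  refine ⟨d, ⟨d0, d1⟩, fun p hp p' hp' q => ?_, fun σ p hp p0 k h => ?_, fun σ p hp p0 => ?_⟩
  · rcases le_total (1 / 2) ‖p.2.2‖ with h | h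
    · exact a true p hp p' hp' q h
    rcases le_total (1 / 2) ‖p'.2.2‖ with h' | h'
    · exact (a false p' hp' p hp q.symm h').symm
    have u := po true p hp h
    have u' := po false p' hp' h'
    simp only [sg, cond, q] at u u'
    linarith
  · obtain ⟨s, hs, s0, u⟩ := cov l (S σ).1 (nn σ) e0.le d1 (he σ) (he _) (E σ) hp
      (k.imp_left fun k => ⟨p0, k⟩) h
    exact ⟨ry (fz (vv p, p.2.2)) s, ⟨s0 p0, hs.2⟩, add_sub_cancel s _, fz_le (z := (vv p, p.2.2)) h, u.symm⟩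
  · have z : ((vv p, p.2.2) : X3) ∈ Kz R w 0 5 := ⟨hp.2.1, norm_nonneg _, hp.2.2⟩
    have T0 := (S σ).1.pos.1
    have dr : ∀ s ∈ Icc p.1 0, HasDerivAt (fun s => (Ψ σ (ry (vv p, p.2.2) s)).1)
        (fderiv ℝ (Ψ σ) (ry (vv p, p.2.2) s) nv).1 s := fun s hs =>
      ((at_df (p_at (S σ).1.pull (ry_mem (Kz_win w0 le_rfl z) ⟨by linarith [hs.1, hp.1.1, he σ],
        by linarith [hs.2, he σ]⟩))).hasFDerivAt.comp_hasDerivAt s ((hasDerivAt_id s).prodMk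
          (((hasDerivAt_id s).const_sub _).prodMk (hasDerivAt_const s _)))).fst
    have := strictMonoOn_of_deriv_pos (convex_Icc p.1 0)
      (fun s hs => (dr s hs).continuousAt.continuousWithinAt) (fun s hs => by
        have hs := interior_subset hs
        rw [(dr s hs).deriv]
        exact (E σ s ⟨hp.1.1.trans hs.1, by linarith [hs.2]⟩).1 _ z)
      (left_mem_Icc.2 p0.le) (right_mem_Icc.2 p0.le) p0
    simp only [ry_eq] at this
    rwa [show ry (vv p, p.2.2) 0 = (0, vv p, p.2.2) by simp [ry],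
      (S σ).1.bot _ (Kz_win w0 le_rfl z)] at this

end Vale.Agent.P354SM
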